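import Vale.Agent.P272.K.QN.H705.Pull

/-!
# The curvature bound of a pulled back metric on a compact manifold
-/

open scoped Manifold ContDiff Topology ComplexConjugate ComplexOrder
open TopologicalSpace (Opens)
open Matrix MeasureTheory
open Vale.Agent.P272.K.P1
open Vale.Agent.P272.K.C2 (DM DMb MD MC D2)

set_option linter.all false

noncomputable section

namespace Vale.Agent.P272.K.QN

variable {n m : ℕ} {X Y : Type*} [TopologicalSpace X] [ChartedSpace (Cm n) X]
  [TopologicalSpace Y] [ChartedSpace (Cm m) Y]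

/-- the coefficients of the quartic form `ξ ↦ R^h(dF ξ, …)` -/
def Rp (F : X → Y) (h : Chart m Y → Cm m → Matrix (Fin m) (Fin m) ℂ) (e : Chart n X)
    (e' : Chart m Y) (z : Cm n) (i j k l : Fin n) : ℂ :=
  -((jm (loc F e e') z)ᵀ * (∑ p, ∑ q, (jm (loc F e e') z p i * cj (jm (loc F e e') z q j)) •
    Pm (h e') (loc F e e' z) p q) * (jm (loc F e e') z).map (starRingEnd ℂ)) k l

lemma Pm_apply (H : Cm m → Matrix (Fin m) (Fin m) ℂ) (z : Cm m) (i j k l : Fin m) :
    Pm H z i j k l = -curv H z i j k l := by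
  rw [Met.curv_eq]
  unfold Pm
  simp only [Matrix.add_apply, Matrix.sub_apply, Matrix.neg_apply]
  ring

lemma quart_Rp (F : X → Y) (h : Chart m Y → Cm m → Matrix (Fin m) (Fin m) ℂ) (e : Chart n X)
    (e' : Chart m Y) (z : Cm n) (ξ : Cm n) : K.quart (Rp F h e e' z) ξ = qF F h e e' z ξ := by
  have h1 := quartR (jm (loc F e e') z) (Pm (h e') (loc F e e' z)) ξ
  have h2 : P1.quart (Pm (h e') (loc F e e' z)) (jm (loc F e e') z *ᵥ ξ)
      (jm (loc F e e') z *ᵥ ξ) (jm (loc F e e') z *ᵥ ξ) (jm (loc F e e') z *ᵥ ξ) =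
      -qF F h e e' z ξ := by
    unfold P1.quart qF K.quart
    simp only [← Finset.sum_neg_distrib, Pm_apply]
    refine Finset.sum_congr rfl fun i _ => Finset.sum_congr rfl fun j _ =>
      Finset.sum_congr rfl fun k _ => Finset.sum_congr rfl fun l _ => ?_
    ring
  rw [h2] at h1
  have h3 : K.quart (Rp F h e e' z) ξ = -P1.quart (fun i j => (jm (loc F e e') z)ᵀ *
      (∑ p, ∑ q, (jm (loc F e e') z p i * cj (jm (loc F e e') z q j)) •
        Pm (h e') (loc F e e' z) p q) * (jm (loc F e e') z).map (starRingEnd ℂ)) ξ ξ ξ ξ := by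
    unfold P1.quart K.quart
    simp only [← Finset.sum_neg_distrib]
    refine Finset.sum_congr rfl fun i _ => Finset.sum_congr rfl fun j _ =>
      Finset.sum_congr rfl fun k _ => Finset.sum_congr rfl fun l _ => ?_
    unfold Rp
    ring
  rw [h3, h1, neg_neg]

variable [IsManifold 𝓘(ℂ, Cm n) ω X] [IsManifold 𝓘(ℂ, Cm m) ω Y] {F : X → Y}
  {h : Chart m Y → Cm m → Matrix (Fin m) (Fin m) ℂ} {e e₂ : Chart n X} {e' e₂' : Chart m Y} {x : X}

lemma cont_jm (hF : ContMDiff 𝓘(ℂ, Cm n) 𝓘(ℂ, Cm m) ω F) (hx : At e x) (hx' : At e' (F x))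
    (p : Fin m) (i : Fin n) : ContinuousAt (fun z => jm (loc F e e') z p i) (e x) :=
  (jm_holo (loc_contDiffAt hF hx hx') p i).continuousAt

lemma cont_Rp (hF : ContMDiff 𝓘(ℂ, Cm n) 𝓘(ℂ, Cm m) ω F) (hh : IsHermitian h) (hx : At e x)
    (hx' : At e' (F x)) (i j k l : Fin n) :
    ContinuousAt (fun z => Rp F h e e' z i j k l) (e x) := by
  have hJ : ∀ p i, ContinuousAt (fun z => jm (loc F e e') z p i) (e x) := cont_jm hF hx hx'
  have hcJ : ∀ p i, ContinuousAt (fun z => cj (jm (loc F e e') z p i)) (e x) := fun p i =>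
    Complex.continuous_conj.continuousAt.comp (hJ p i)
  have hP : ∀ p q r s, ContinuousAt (fun z => Pm (h e') (loc F e e' z) p q r s) (e x) := by
    intro p q r s
    simp only [Pm_apply]
    refine ContinuousAt.neg ?_
    have h1 : ContinuousAt (fun y => curv (h e') y p q r s) (loc F e e' (e x)) := by
      rw [loc_apply hx]
      exact (contDiffAt_curv (hh.smooth e' (F x) hx') (hh.posDef e' (F x) hx').det_pos.ne'
        p q r s).continuousAt
    exact ContinuousAt.comp (f := loc F e e') (g := fun y => curv (h e') y p q r s) h1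
      (loc_contDiffAt hF hx hx').continuousAt
  have h2 : (fun z => Rp F h e e' z i j k l) = fun z => -∑ s, (∑ r, jm (loc F e e') z r k *
      (∑ p, ∑ q, (jm (loc F e e') z p i * cj (jm (loc F e e') z q j)) *
        Pm (h e') (loc F e e' z) p q r s)) * cj (jm (loc F e e') z s l) := by
    funext z
    unfold Rp
    simp only [Matrix.mul_apply, Matrix.transpose_apply, Matrix.map_apply, Matrix.sum_apply,
      Matrix.smul_apply, smul_eq_mul]
  rw [h2]
  refine ContinuousAt.neg (tendsto_finset_sum _ fun s _ => ContinuousAt.mul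
    (tendsto_finset_sum _ fun r _ => ContinuousAt.mul (hJ r k)
      (tendsto_finset_sum _ fun p _ => tendsto_finset_sum _ fun q _ =>
        ((hJ p i).mul (hcJ q j)).mul (hP p q r s))) (hcJ s l))

lemma cont_pl (hF : ContMDiff 𝓘(ℂ, Cm n) 𝓘(ℂ, Cm m) ω F) (hh : IsHermitian h) (hx : At e x)
    (hx' : At e' (F x)) (i j : Fin n) :
    ContinuousAt (fun z => pl (h e') (loc F e e') z i j) (e x) := by
  have h1 := ((isSemi_pb hF hh).smooth e x hx i j).continuousAt
  refine h1.congr ?_
  filter_upwards [pb_eventually hF hh hx hx'] with z hz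
  rw [hz]

/-- the holomorphic sectional curvature of `h` is nonpositive along `F` and, at some point `x`,
negative in the directions `dF_x(ξ)`, `ξ ≠ 0` (so that `F` is immersive at `x`) -/
def QuasiNegAlong (F : X → Y) (h : Chart m Y → Cm m → Matrix (Fin m) (Fin m) ℂ) : Prop :=
  (∀ (e : Chart n X) (e' : Chart m Y) x, At e x → At e' (F x) → ∀ ξ : Cm n,
    (qF F h e e' (e x) ξ).re ≤ 0) ∧
  ∃ x, ∀ (e : Chart n X) (e' : Chart m Y), At e x → At e' (F x) → ∀ ξ : Cm n, ξ ≠ 0 →
    (qF F h e e' (e x) ξ).re < 0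

/-- **curvature bound** -/
theorem exists_kappa_pull [T2Space X] [CompactSpace X]
    (hF : ContMDiff 𝓘(ℂ, Cm n) 𝓘(ℂ, Cm m) ω F) (hh : IsHermitian h)
    (hq : QuasiNegAlong (n := n) F h) :
    ∃ κ : X → ℝ, Continuous κ ∧ (∀ x, 0 ≤ κ x) ∧
      (∀ (e : Chart n X) x, At e x → CurvLe (κ x) (pb F h e) (e x)) ∧
      ∃ (e : Chart n X) (x : X), At e x ∧ 0 < κ x ∧ (pb F h e (e x)).PosDef := by
  classical
  obtain ⟨hle, x₀, hx₀⟩ := hq
  set c := chartAt (Cm n) x₀ with hc
  have hAt : At c x₀ := ⟨chart_mem_atlas _ x₀, mem_chart_source _ x₀⟩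
  set c' := chartAt (Cm m) (F x₀) with hc'
  have hAt' : At c' (F x₀) := ⟨chart_mem_atlas _ _, mem_chart_source _ _⟩
  set S : Set (Cm n) := Metric.sphere 0 1 with hS
  have hScomp : IsCompact S := isCompact_sphere 0 1
  -- negativity near `x₀`
  have hcont : ∀ ξ ∈ S, ∀ᶠ p : Cm n × Cm n in 𝓝 (c x₀, ξ),
      (K.quart (Rp F h c c' p.1) p.2).re < 0 := by
    intro ξ hξ
    have hξ0 : ξ ≠ 0 := by
      rintro rfl
      simp [hS] at hξ
    have hc1 : ContinuousAt (fun p : Cm n × Cm n => (K.quart (Rp F h c c' p.1) p.2).re)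
        (c x₀, ξ) := by
      refine Complex.continuous_re.continuousAt.comp ?_
      unfold K.quart
      refine tendsto_finset_sum _ fun i _ => tendsto_finset_sum _ fun j _ =>
        tendsto_finset_sum _ fun k _ => tendsto_finset_sum _ fun l _ => ?_
      have hc2 : ContinuousAt (fun p : Cm n × Cm n => Rp F h c c' p.1 i j k l) (c x₀, ξ) :=
        ContinuousAt.comp (f := fun p : Cm n × Cm n => p.1)
          (g := fun z => Rp F h c c' z i j k l) (cont_Rp hF hh hAt hAt' i j k l) continuousAt_fst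
      have hc3 : Continuous (fun p : Cm n × Cm n => p.2 i * cj (p.2 j) * p.2 k * cj (p.2 l)) := by
        have hcj : Continuous (fun z : ℂ => cj z) := Complex.continuous_conj
        fun_prop
      exact hc2.mul hc3.continuousAt
    have h1 : (K.quart (Rp F h c c' (c x₀)) ξ).re < 0 := by
      rw [quart_Rp]; exact hx₀ c c' hAt hAt' ξ hξ0
    exact hc1.eventually_lt continuousAt_const h1
  have hnear : ∀ᶠ z in 𝓝 (c x₀), ∀ ξ ∈ S, (K.quart (Rp F h c c' z) ξ).re < 0 :=
    hScomp.eventually_forall_of_forall_eventually (x₀ := c x₀)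
      (P := fun z ξ => (K.quart (Rp F h c c' z) ξ).re < 0) hcont
  obtain ⟨r, hr, hball⟩ := Metric.nhds_basis_closedBall.mem_iff.1
    (Filter.inter_mem (nhds_loc hF.continuous hAt hAt') hnear)
  have hin : ∀ z ∈ Metric.closedBall (c x₀) r, z ∈ c.target ∧ At c (c.symm z) ∧
      At c' (F (c.symm z)) := fun z hz => (hball hz).1
  obtain ⟨k, hk, hkb⟩ := exists_quartic_bound (isCompact_closedBall (c x₀) r)
    (fun z => Rp F h c c' z) (fun z => pl (h c') (loc F c c') z)
    (fun i j k l z hz => by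
      have h1 := hin z hz
      have := cont_Rp hF hh h1.2.1 h1.2.2 i j k l
      rw [c.right_inv h1.1] at this
      exact this.continuousWithinAt)
    (fun i j z hz => by
      have h1 := hin z hz
      have := cont_pl hF hh h1.2.1 h1.2.2 i j
      rw [c.right_inv h1.1] at this
      exact this.continuousWithinAt)
    (by
      intro z hz ξ hξ
      obtain ⟨η, hηS, t, ht, rfl⟩ := unit_decomp hξ
      rw [quart_smul, Complex.re_ofReal_mul]
      have h2 : (K.quart (Rp F h c c' z) η).re < 0 := (hball hz).2 η hηS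
      have : 0 < t ^ 4 := by positivity
      nlinarith)
  -- the cut-off
  set W : Set X := c.source ∩ c ⁻¹' Metric.ball (c x₀) r with hW
  have hWo : IsOpen W := c.isOpen_inter_preimage Metric.isOpen_ball
  have hxW : x₀ ∈ W := ⟨hAt.2, by simp [hr]⟩
  obtain ⟨ρ, hρ0, hρ1, hρ⟩ := exists_continuous_zero_one_of_isClosed (s := Wᶜ) (t := {x₀})
    hWo.isClosed_compl isClosed_singleton (by
      rw [Set.disjoint_singleton_right]; exact fun h => h hxW)
  have key : ∀ (e : Chart n X) (e' : Chart m Y) x, At e x → At e' (F x) → ∀ ξ : Cm n,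
      (qF F h e e' (e x) ξ).re ≤ -(k * ρ x) * (quad (pb F h e (e x)) ξ).re ^ 2 := by
    intro e e' x hx hx' ξ
    by_cases hxW : x ∈ W
    · have hcx : At c x := ⟨hAt.1, hxW.1⟩
      have h0 := hin (c x) (Metric.ball_subset_closedBall hxW.2)
      rw [c.left_inv hxW.1] at h0
      have hcx' : At c' (F x) := h0.2.2
      have h1 := hkb (c x) (Metric.ball_subset_closedBall hxW.2) (jacM e c x *ᵥ ξ)
      rw [quart_Rp, ← pb_apply hF hh hcx hcx', ← qF_left hF hx hcx hcx',
        qF_right hF hh hx hx' hcx'] at h1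
      have h3 : quad (pb F h e (e x)) ξ = quad (pb F h c (c x)) (jacM e c x *ᵥ ξ) := by
        rw [(isSemi_pb hF hh).change e c x hx hcx]
        exact T4.quad_form _ _ _
      rw [h3]
      refine h1.trans ?_
      have h2 : k * ρ x ≤ k := by
        have := (hρ x).2
        nlinarith
      have := mul_le_mul_of_nonneg_right h2
        (sq_nonneg (quad (pb F h c (c x)) (jacM e c x *ᵥ ξ)).re)
      linarith
    · have h0 : ρ x = 0 := hρ0 hxW
      rw [h0]
      have h3 := hle e e' x hx hx' ξ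
      simpa using h3
  refine ⟨fun x => k * ρ x, continuous_const.mul ρ.continuous,
    fun x => mul_nonneg hk.le (hρ x).1, fun e x hx => ?_, c, x₀, hAt, ?_, ?_⟩
  · have hx' : At (chartAt (Cm m) (F x)) (F x) := ⟨chart_mem_atlas _ _, mem_chart_source _ _⟩
    exact curvLe_pb hF hh hx hx' (key e _ x hx hx')
  · have : ρ x₀ = 1 := hρ1 (Set.mem_singleton x₀)
    simp only [this, mul_one]
    exact hk
  · refine posDef_of_quad ((isSemi_pb hF hh).pos c x₀ hAt).isHermitian fun ξ hξ => ?_
    rw [pb_apply hF hh hAt hAt', quad_pl, loc_apply hAt]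
    refine quad_pos (hh.posDef c' (F x₀) hAt') ?_
    intro h0
    have := hx₀ c c' hAt hAt' ξ hξ
    unfold qF at this
    rw [h0] at this
    simp [K.quart] at this

end Vale.Agent.P272.K.QN
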