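import Vale.Agent.P272.K.QN.H705.Ident
import Vale.Agent.P272.K.QN.H705.PullKappa
import Vale.Agent.P272.K.QN.H527.VO
import Vale.Agent.P272.K.QN.H977.Final
import Vale.Agent.P272.K.QN.H947.HA
import Vale.Agent.P272.K.QN.H86.SubMean
import Vale.Agent.P272.K.QN.H553.Final
import Vale.Agent.P272.K.QN.H327.PT
import Vale.Agent.P272.K.AMP.Main.Step0

/-!
# Final assembly for semi-positive forms of quasi-negative curvature
-/

open scoped Manifold ContDiff Topology ComplexConjugate ComplexOrder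
open TopologicalSpace (Opens)
open Matrix MeasureTheory Filter

set_option linter.all false

noncomputable section

namespace Vale.Agent.P272.K.QN

open INT (PP)

variable {n : ℕ}

section
variable (n) (X : Type) [TopologicalSpace X] [ChartedSpace (Cm n) X]
    [IsManifold 𝓘(ℂ, Cm n) ω X] [T2Space X] [CompactSpace X]

theorem gl : GLBlock n X := glBlock (identBlock n) (H327.ptBlock (pwBlock n)) X

variable [ConnectedSpace X]

theorem ha : HABlock n X := haBlock_of_subMean (subMean n)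

theorem vo : VOBlock n X := voBlock n X (gl n X) (ha n X)

end

section
variable {X : Type} [TopologicalSpace X] [ChartedSpace (Cm n) X]
    [IsManifold 𝓘(ℂ, Cm n) ω X] [T2Space X] [CompactSpace X] [ConnectedSpace X]
    {w h : Chart n X → Cm n → Matrix (Fin n) (Fin n) ℂ}

/-- If a semi-positive form `h` satisfies the curvature bound `CurvLe κ` with `κ ≥ 0` continuous,
and at some point `κ > 0` and `h` is positive definite, then `(K_X + a[w])^n > 0` as soon as
`K_X + a[w]` is nef, `a ≥ 0`. -/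
theorem big_of_semi (hn : 1 ≤ n) (hw : IsKahler w) (hh : IsSemi h)
    (hk : ∃ κ : X → ℝ, Continuous κ ∧ (∀ x, 0 ≤ κ x) ∧
      (∀ (e : Chart n X) x, At e x → CurvLe (κ x) (h e) (e x)) ∧
      ∃ (e : Chart n X) (x : X), At e x ∧ 0 < κ x ∧ (h e (e x)).PosDef)
    {a : ℝ} (ha : 0 ≤ a) (hnef : NefCanonical w a) {φ : Chart n X → Cm n → ℝ}
    (hφ : IsCanonicalMetric φ) :
    ∃ I : ℝ, 0 < I ∧ IsIntegral (fun e z => (cHess (φ e) z + (a : ℂ) • w e z).det.re) I := by
  obtain ⟨κ, hκc, hκ0, hκ, hpt⟩ := hk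
  obtain ⟨c, hc0, hc⟩ := vo n X hn w h hw hh κ hκc hκ0 hκ hpt a ha φ hφ
  have hwc := INT.IsKahler.isClosedForm hw
  have hAY := aubinYau n X
  have hlow : ∀ t, a < t → t < a + 1 → c ≤ PP φ w t := by
    intro t hat hta
    have hpos : AMP.Main.Pos w t := by
      obtain ⟨φ0, hφ0, hpsd⟩ := hnef ((t - a) / 2) (by linarith)
      refine ⟨φ0, hφ0, fun e x hx => ?_⟩
      have h1 : cHess (φ0 e) (e x) + (t : ℂ) • w e (e x) =
          (cHess (φ0 e) (e x) + ((a + (t - a) / 2 : ℝ) : ℂ) • w e (e x)) +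
            (((t - a) / 2 : ℝ) : ℂ) • w e (e x) := by
        rw [add_assoc, ← add_smul]
        congr 2
        push_cast; ring
      rw [h1]
      exact Matrix.PosDef.posSemidef_add (hpsd e x hx)
        (posDef_ofReal_smul (hw.posDef e x hx) (by linarith))
    obtain ⟨φ0, hφ0, hpos0⟩ := hpos
    obtain ⟨ψ, hψ, hψpos, hKE⟩ := AMP.Main.exists_KE hAY hw hφ0 hpos0
    have h1 := hc t hat hta ψ hψ hψpos hKE
    rw [INT.PP_eq hφ hψ hwc]
    exact h1
  have hcont : Tendsto (PP φ w) (𝓝[>] a) (𝓝 (PP φ w a)) :=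
    (INT.PP_hasDerivAt hφ hwc a).continuousAt.tendsto.mono_left nhdsWithin_le_nhds
  have hge : c ≤ PP φ w a := by
    refine ge_of_tendsto hcont ?_
    have : Set.Ioo a (a + 1) ∈ 𝓝[>] a := Ioo_mem_nhdsGT (by linarith)
    filter_upwards [this] with t ht using hlow t ht.1 ht.2
  refine ⟨PP φ w a, lt_of_lt_of_le hc0 hge, ?_⟩
  exact (((INT.isClosedForm_canonical hφ).add (hwc.smul (a : ℂ))).isDensity).isIntegral

/-- **quasi-negative Hermitian metrics** -/
theorem big_of_quasiNeg (hn : 1 ≤ n) (hw : IsKahler w) (hh : IsHermitian h)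
    (hq : QuasiNegHSC h) {a : ℝ} (ha : 0 ≤ a) (hnef : NefCanonical w a)
    {φ : Chart n X → Cm n → ℝ} (hφ : IsCanonicalMetric φ) :
    ∃ I : ℝ, 0 < I ∧ IsIntegral (fun e z => (cHess (φ e) z + (a : ℂ) • w e z).det.re) I := by
  obtain ⟨κ, hκc, hκ0, -, hκ, hpt⟩ := exists_kappa hh hq
  exact big_of_semi hn hw (isSemi_of_isHermitian hh) ⟨κ, hκc, hκ0, hκ, hpt⟩ ha hnef hφ

/-- **generically immersive maps into manifolds of nonpositive curvature** -/
theorem big_of_pull {m : ℕ} {Y : Type*} [TopologicalSpace Y] [ChartedSpace (Cm m) Y]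
    [IsManifold 𝓘(ℂ, Cm m) ω Y] (hn : 1 ≤ n) (hw : IsKahler w) {F : X → Y}
    (hF : ContMDiff 𝓘(ℂ, Cm n) 𝓘(ℂ, Cm m) ω F) {hY : Chart m Y → Cm m → Matrix (Fin m) (Fin m) ℂ}
    (hh : IsHermitian hY) (hq : QuasiNegAlong (n := n) F hY) {a : ℝ} (ha : 0 ≤ a)
    (hnef : NefCanonical w a) {φ : Chart n X → Cm n → ℝ} (hφ : IsCanonicalMetric φ) :
    ∃ I : ℝ, 0 < I ∧ IsIntegral (fun e z => (cHess (φ e) z + (a : ℂ) • w e z).det.re) I :=
  big_of_semi hn hw (isSemi_pb hF hh) (exists_kappa_pull hF hh hq) ha hnef hφ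

end

/-- **X4** -/
theorem quasiNegStatement : QuasiNegStatement := by
  intro n hn X _ _ _ _ _ _ w h hw hh hq a ha hnef φ hφ
  exact big_of_quasiNeg hn hw hh hq ha hnef hφ

end Vale.Agent.P272.K.QN
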