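import Vale.Agent.P272.K.P1.Ident

/-!
# The divergence identity for the weighted vector field (algebra)
-/

namespace Vale.Agent.P272.K.QN

open Matrix Vale.Agent.P272.K.P1

set_option linter.unusedSectionVars false

/-- A second Hermitian form `H`, a real constant `c` and the inverse `C` of `G + c H`. -/
structure QDat {n : ℕ} {A : Type*} [CommRing A] [StarRing A] {W : WAlg n A} (K : KMet W) where
  H : Matrix (Fin n) (Fin n) A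
  C : Matrix (Fin n) (Fin n) A
  c : A
  herm : Hᴴ = H
  c_star : star c = c
  c_db : ∀ l, W.db l c = 0
  mul_C : (K.G + c • H) * C = 1
  C_mul : C * (K.G + c • H) = 1

namespace QDat

variable {n : ℕ} {A : Type*} [CommRing A] [StarRing A] {W : WAlg n A} {K : KMet W} (Q : QDat K)

/-- `B = C G C` -/
def B : Matrix (Fin n) (Fin n) A := Q.C * K.G * Q.C

/-- `N_k = ∂_k H - Γ_k H` -/
def N (k : Fin n) : Matrix (Fin n) (Fin n) A := W.D k Q.H - K.Ga k * Q.H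

lemma herm_C : Q.Cᴴ = Q.C := by
  have h : Q.Cᴴ * (K.G + Q.c • Q.H) = 1 := by
    have h1 : (K.G + Q.c • Q.H)ᴴ = K.G + Q.c • Q.H := by
      rw [conjTranspose_add, conjTranspose_smul, K.herm, Q.herm, Q.c_star]
    rw [← h1, ← conjTranspose_mul, Q.mul_C, conjTranspose_one]
  calc Q.Cᴴ = Q.Cᴴ * ((K.G + Q.c • Q.H) * Q.C) := by rw [Q.mul_C, mul_one]
    _ = Q.C := by rw [← mul_assoc, h, one_mul]

lemma herm_B : Q.Bᴴ = Q.B := by
  rw [B, conjTranspose_mul, conjTranspose_mul, Q.herm_C, K.herm, mul_assoc]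

lemma N_star (l : Fin n) : (Q.N l)ᴴ = W.Db l Q.H - Q.H * (K.Ga l)ᴴ := by
  rw [N, conjTranspose_sub, conjTranspose_mul, ← W.Db_conjTranspose, Q.herm]

lemma Db_H (l : Fin n) : W.Db l Q.H = (Q.N l)ᴴ + Q.H * (K.Ga l)ᴴ := by
  rw [N_star]; abel

lemma Db_smul (l : Fin n) (M : Matrix (Fin n) (Fin n) A) :
    W.Db l (Q.c • M) = Q.c • W.Db l M := by
  ext a b
  simp only [WAlg.Db_apply, Matrix.smul_apply, smul_eq_mul, W.db_mul, Q.c_db, zero_mul, zero_add]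

lemma Db_C (l : Fin n) :
    W.Db l Q.C = -((K.Ga l)ᴴ * Q.C) - Q.c • (Q.C * (Q.N l)ᴴ * Q.C) := by
  have h := W.Db_inv Q.mul_C Q.C_mul l
  have e : W.Db l (K.G + Q.c • Q.H) =
      (K.G + Q.c • Q.H) * (K.Ga l)ᴴ + Q.c • (Q.N l)ᴴ := by
    rw [W.Db_add, Q.Db_smul, K.Db_G_eq, Q.Db_H, Matrix.add_mul, smul_add, Matrix.smul_mul]
    abel
  rw [h, e, Matrix.mul_add, Matrix.add_mul, ← mul_assoc, Q.C_mul, one_mul, Matrix.mul_smul,
    Matrix.smul_mul, neg_add, sub_eq_add_neg]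

lemma Db_B (l : Fin n) :
    W.Db l Q.B = -((K.Ga l)ᴴ * Q.B) - Q.c • (Q.C * (Q.N l)ᴴ * Q.B)
      - Q.c • (Q.B * (Q.N l)ᴴ * Q.C) := by
  rw [B, W.Db_mul, W.Db_mul, Q.Db_C, K.Db_G_eq]
  simp only [Matrix.add_mul, Matrix.sub_mul, Matrix.mul_sub, Matrix.neg_mul, Matrix.mul_neg,
    Matrix.smul_mul, Matrix.mul_smul, mul_assoc]
  abel

lemma Db_N (k l : Fin n) :
    W.Db l (Q.N k) = K.E Q.H k l + K.R k l * K.Gi * Q.H + Q.N k * (K.Ga l)ᴴ := by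
  rw [N, W.Db_sub, W.Db_mul, K.Db_Ga, KMet.E, W.D_Db]
  noncomm_ring

/-- the trace of `C N_k` -/
lemma db_trace_CN (k l : Fin n) :
    W.db l (Q.C * Q.N k).trace = -Q.c * (Q.C * (Q.N l)ᴴ * Q.C * Q.N k).trace
      + (Q.C * (K.E Q.H k l + K.R k l * K.Gi * Q.H)).trace := by
  have h : W.Db l (Q.C * Q.N k) = -((K.Ga l)ᴴ * (Q.C * Q.N k))
      - Q.c • (Q.C * (Q.N l)ᴴ * Q.C * Q.N k)
      + Q.C * (K.E Q.H k l + K.R k l * K.Gi * Q.H) + Q.C * Q.N k * (K.Ga l)ᴴ := by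
    rw [W.Db_mul, Q.Db_C, Q.Db_N]
    simp only [Matrix.add_mul, Matrix.sub_mul, Matrix.mul_add, Matrix.neg_mul,
      Matrix.smul_mul, mul_assoc]
    abel
  rw [W.db_trace, h, trace_add, trace_add, trace_sub, trace_neg, trace_smul,
    Matrix.trace_mul_comm (Q.C * Q.N k) (K.Ga l)ᴴ, smul_eq_mul]
  ring

/-- the matrix whose `(l, k)` entries are summed in the vector field -/
def M (k : Fin n) : Matrix (Fin n) (Fin n) A :=
  (Q.C * Q.N k).trace • Q.C + Q.C * Q.N k * Q.C + (2 : A) • (Q.C * Q.N k * Q.B)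
    - (2 : A) • (Q.B * Q.N k * Q.C)

/-- the tensorial part of the derivative of `C N_k C'` -/
def T2 (k l : Fin n) : Matrix (Fin n) (Fin n) A := K.E Q.H k l + K.R k l * K.Gi * Q.H

/-- the tensorial part of the derivative of `M k` -/
def Z (k l : Fin n) : Matrix (Fin n) (Fin n) A :=
  (-Q.c * (Q.C * (Q.N l)ᴴ * Q.C * Q.N k).trace + (Q.C * Q.T2 k l).trace) • Q.C
    - (Q.c * (Q.C * Q.N k).trace) • (Q.C * (Q.N l)ᴴ * Q.C)
    + (-(Q.c • (Q.C * (Q.N l)ᴴ * Q.C * Q.N k * Q.C)) + Q.C * Q.T2 k l * Q.C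
      - Q.c • (Q.C * Q.N k * Q.C * (Q.N l)ᴴ * Q.C))
    + (2 : A) • (-(Q.c • (Q.C * (Q.N l)ᴴ * Q.C * Q.N k * Q.B)) + Q.C * Q.T2 k l * Q.B
      - Q.c • (Q.C * Q.N k * Q.C * (Q.N l)ᴴ * Q.B)
      - Q.c • (Q.C * Q.N k * Q.B * (Q.N l)ᴴ * Q.C))
    - (2 : A) • (-(Q.c • (Q.C * (Q.N l)ᴴ * Q.B * Q.N k * Q.C))
      - Q.c • (Q.B * (Q.N l)ᴴ * Q.C * Q.N k * Q.C) + Q.B * Q.T2 k l * Q.C
      - Q.c • (Q.B * Q.N k * Q.C * (Q.N l)ᴴ * Q.C))

lemma Db_two_smul (l : Fin n) (X : Matrix (Fin n) (Fin n) A) :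
    W.Db l ((2 : A) • X) = (2 : A) • W.Db l X := by
  have : ((2 : A) • X) = X + X := by rw [two_smul]
  rw [this, W.Db_add, two_smul]

lemma Db_scal (l : Fin n) (t : A) (X : Matrix (Fin n) (Fin n) A) :
    W.Db l (t • X) = W.db l t • X + t • W.Db l X := by
  ext a b
  simp only [WAlg.Db_apply, Matrix.smul_apply, smul_eq_mul, W.db_mul, Matrix.add_apply]

lemma Db_CNC (k l : Fin n) : W.Db l (Q.C * Q.N k * Q.C) =
    -((K.Ga l)ᴴ * (Q.C * Q.N k * Q.C)) + (-(Q.c • (Q.C * (Q.N l)ᴴ * Q.C * Q.N k * Q.C))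
      + Q.C * Q.T2 k l * Q.C - Q.c • (Q.C * Q.N k * Q.C * (Q.N l)ᴴ * Q.C)) := by
  rw [W.Db_mul, W.Db_mul, Q.Db_C, Q.Db_N, T2]
  simp only [Matrix.add_mul, Matrix.sub_mul, Matrix.mul_add, Matrix.mul_sub, Matrix.neg_mul,
    Matrix.mul_neg, Matrix.smul_mul, Matrix.mul_smul, mul_assoc]
  abel

lemma Db_CNB (k l : Fin n) : W.Db l (Q.C * Q.N k * Q.B) =
    -((K.Ga l)ᴴ * (Q.C * Q.N k * Q.B)) + (-(Q.c • (Q.C * (Q.N l)ᴴ * Q.C * Q.N k * Q.B))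
      + Q.C * Q.T2 k l * Q.B - Q.c • (Q.C * Q.N k * Q.C * (Q.N l)ᴴ * Q.B)
      - Q.c • (Q.C * Q.N k * Q.B * (Q.N l)ᴴ * Q.C)) := by
  rw [W.Db_mul, W.Db_mul, Q.Db_C, Q.Db_B, Q.Db_N, T2]
  simp only [Matrix.add_mul, Matrix.sub_mul, Matrix.mul_add, Matrix.mul_sub, Matrix.neg_mul,
    Matrix.mul_neg, Matrix.smul_mul, Matrix.mul_smul, mul_assoc]
  abel

lemma Db_BNC (k l : Fin n) : W.Db l (Q.B * Q.N k * Q.C) =
    -((K.Ga l)ᴴ * (Q.B * Q.N k * Q.C)) + (-(Q.c • (Q.C * (Q.N l)ᴴ * Q.B * Q.N k * Q.C))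
      - Q.c • (Q.B * (Q.N l)ᴴ * Q.C * Q.N k * Q.C) + Q.B * Q.T2 k l * Q.C
      - Q.c • (Q.B * Q.N k * Q.C * (Q.N l)ᴴ * Q.C)) := by
  rw [W.Db_mul, W.Db_mul, Q.Db_C, Q.Db_B, Q.Db_N, T2]
  simp only [Matrix.add_mul, Matrix.sub_mul, Matrix.mul_add, Matrix.mul_sub, Matrix.neg_mul,
    Matrix.mul_neg, Matrix.smul_mul, Matrix.mul_smul, mul_assoc]
  abel

lemma Db_M (k l : Fin n) : W.Db l (Q.M k) = -((K.Ga l)ᴴ * Q.M k) + Q.Z k l := by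
  rw [M, W.Db_sub, W.Db_add, W.Db_add, Db_scal, Db_two_smul, Db_two_smul, Q.Db_CNC, Q.Db_CNB,
    Q.Db_BNC, Q.db_trace_CN, Q.Db_C, Z, T2]
  simp only [Matrix.mul_add, Matrix.mul_sub, Matrix.mul_smul, smul_add, smul_sub, smul_neg,
    neg_add, add_smul, sub_smul, neg_smul, smul_smul, neg_sub, neg_mul]
  rw [mul_comm Q.c ((Q.C * Q.N k).trace)]
  abel

/-- the weight -/
def wt : A := K.G.det ^ 2 * Q.C.det

lemma db_wt (l : Fin n) :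
    W.db l Q.wt = Q.wt * ((K.Ga l)ᴴ.trace - Q.c * (Q.C * (Q.N l)ᴴ).trace) := by
  have h0 : W.db l K.G.det = K.G.det * (K.Ga l)ᴴ.trace := by
    rw [W.db_det' K.mul_inv, K.Db_G_eq, ← mul_assoc, K.inv_mul, one_mul]
  have h1 : W.db l Q.C.det = Q.C.det * (-(K.Ga l)ᴴ.trace - Q.c * (Q.C * (Q.N l)ᴴ).trace) := by
    rw [W.db_det' Q.C_mul, Q.Db_C, Matrix.mul_sub, Matrix.mul_neg, trace_sub, trace_neg]
    congr 2
    · rw [Matrix.trace_mul_comm, mul_assoc, Q.C_mul, mul_one]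
    · rw [Matrix.mul_smul, trace_smul, smul_eq_mul, mul_assoc, ← mul_assoc _ Q.C, Q.mul_C,
        one_mul, Matrix.trace_mul_comm]
  rw [wt, W.db_mul, pow_two, W.db_mul, h0, h1]
  ring

/-- the vector field -/
def V (l : Fin n) : A := Q.wt * ∑ k, Q.M k l k

lemma kahler_cancel (X : Matrix (Fin n) (Fin n) A) (k : Fin n) :
    ∑ l, (K.Ga l)ᴴ.trace * X l k = ∑ l, ((K.Ga l)ᴴ * X) l k := by
  simp only [trace, diag, Matrix.mul_apply (M := (K.Ga _)ᴴ), Finset.sum_mul,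
    conjTranspose_apply]
  rw [Finset.sum_comm]
  refine Finset.sum_congr rfl fun j _ => Finset.sum_congr rfl fun p _ => ?_
  rw [K.Ga_symm p j j]

lemma div_V : ∑ l, W.db l (Q.V l) =
    Q.wt * ∑ k, ∑ l, (Q.Z k l l k - Q.c * (Q.C * (Q.N l)ᴴ).trace * Q.M k l k) := by
  have h1 : ∀ l, W.db l (Q.V l) = Q.wt * ∑ k, ((K.Ga l)ᴴ.trace * Q.M k l k
      - ((K.Ga l)ᴴ * Q.M k) l k + (Q.Z k l l k
      - Q.c * (Q.C * (Q.N l)ᴴ).trace * Q.M k l k)) := by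
    intro l
    rw [V, W.db_mul, Q.db_wt, W.db_sum, mul_assoc, ← mul_add, Finset.mul_sum,
      ← Finset.sum_add_distrib]
    congr 1
    refine Finset.sum_congr rfl fun k _ => ?_
    rw [← WAlg.Db_apply, Q.Db_M, Matrix.add_apply, Matrix.neg_apply]
    ring
  simp only [h1, ← Finset.mul_sum]
  congr 1
  rw [Finset.sum_comm]
  refine Finset.sum_congr rfl fun k _ => ?_
  rw [Finset.sum_add_distrib, Finset.sum_sub_distrib, kahler_cancel, sub_self, zero_add]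

end QDat

end Vale.Agent.P272.K.QN
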