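import Vale.Agent.P272.K.QN.H705.Alg

/-!
# The divergence identity for the weighted vector field (real part, algebra)
-/

namespace Vale.Agent.P272.K.QN

open Matrix Vale.Agent.P272.K.P1

set_option linter.unusedSectionVars false

section phi

variable {n : ℕ} {A : Type*} [CommRing A] [StarRing A] {W : WAlg n A} (K : KMet W)

/-- full contraction of the curvature with two matrices -/
def Phi (U V : Matrix (Fin n) (Fin n) A) : A := ∑ k, ∑ l, U l k * (V * K.R k l).trace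

lemma Phi_expand (U V : Matrix (Fin n) (Fin n) A) :
    Phi K U V = ∑ k, ∑ l, ∑ a, ∑ b, U l k * V b a * K.R k l a b := by
  simp only [Phi, trace, diag, Matrix.mul_apply, Finset.mul_sum]
  refine Finset.sum_congr rfl fun k _ => Finset.sum_congr rfl fun l _ => ?_
  rw [Finset.sum_comm]
  exact Finset.sum_congr rfl fun a _ => Finset.sum_congr rfl fun b _ => by ring

lemma R_swap (k l a b : Fin n) : K.R k l a b = K.R a b k l := by
  rw [K.R_symm k l a b, K.R_symm' a l k b]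

lemma sum4_swap (F : Fin n → Fin n → Fin n → Fin n → A) :
    ∑ k, ∑ l, ∑ a, ∑ b, F k l a b = ∑ k, ∑ l, ∑ a, ∑ b, F a b k l := by
  calc ∑ k, ∑ l, ∑ a, ∑ b, F k l a b
      = ∑ k, ∑ a, ∑ l, ∑ b, F k l a b := by
        exact Finset.sum_congr rfl fun k _ => Finset.sum_comm
    _ = ∑ a, ∑ k, ∑ l, ∑ b, F k l a b := Finset.sum_comm
    _ = ∑ a, ∑ k, ∑ b, ∑ l, F k l a b := by
        exact Finset.sum_congr rfl fun a _ => Finset.sum_congr rfl fun k _ => Finset.sum_comm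
    _ = ∑ a, ∑ b, ∑ k, ∑ l, F k l a b := by
        exact Finset.sum_congr rfl fun a _ => Finset.sum_comm

lemma sum4_swap' (F : Fin n → Fin n → Fin n → Fin n → A) :
    ∑ k, ∑ l, ∑ a, ∑ b, F k l a b = ∑ k, ∑ l, ∑ a, ∑ b, F a l k b := by
  calc ∑ k, ∑ l, ∑ a, ∑ b, F k l a b
      = ∑ k, ∑ a, ∑ l, ∑ b, F k l a b := by
        exact Finset.sum_congr rfl fun k _ => Finset.sum_comm
    _ = ∑ a, ∑ k, ∑ l, ∑ b, F k l a b := Finset.sum_comm
    _ = ∑ a, ∑ l, ∑ k, ∑ b, F k l a b := by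
        exact Finset.sum_congr rfl fun a _ => Finset.sum_comm

lemma Phi_symm (U V : Matrix (Fin n) (Fin n) A) : Phi K U V = Phi K V U := by
  rw [Phi_expand, Phi_expand, sum4_swap]
  refine Finset.sum_congr rfl fun k _ => Finset.sum_congr rfl fun l _ =>
    Finset.sum_congr rfl fun a _ => Finset.sum_congr rfl fun b _ => ?_
  rw [R_swap K a b k l]
  ring

lemma Phi_mid (U V : Matrix (Fin n) (Fin n) A) :
    ∑ k, ∑ l, (U * K.R k l * V) l k = Phi K U V := by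
  have h : ∀ k l, (U * K.R k l * V) l k = ∑ a, ∑ b, U l a * V b k * K.R k l a b := by
    intro k l
    simp only [Matrix.mul_apply, Finset.sum_mul]
    rw [Finset.sum_comm]
    exact Finset.sum_congr rfl fun a _ => Finset.sum_congr rfl fun b _ => by ring
  simp only [h]
  rw [Phi_expand, sum4_swap']
  refine Finset.sum_congr rfl fun k _ => Finset.sum_congr rfl fun l _ =>
    Finset.sum_congr rfl fun a _ => Finset.sum_congr rfl fun b _ => ?_
  rw [K.R_symm a l k b]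

lemma Phi_add_left (U U' V : Matrix (Fin n) (Fin n) A) :
    Phi K (U + U') V = Phi K U V + Phi K U' V := by
  simp only [Phi, Matrix.add_apply, add_mul, Finset.sum_add_distrib]

lemma Phi_smul_left (c : A) (U V : Matrix (Fin n) (Fin n) A) :
    Phi K (c • U) V = c * Phi K U V := by
  simp only [Phi, Matrix.smul_apply, smul_eq_mul, Finset.mul_sum, mul_assoc]

lemma Phi_Gi (V : Matrix (Fin n) (Fin n) A) : Phi K K.Gi V = (V * K.Ric).trace := K.sum_R V

end phi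

namespace QDat

variable {n : ℕ} {A : Type*} [CommRing A] [StarRing A] {W : WAlg n A} {K : KMet W} (Q : QDat K)

lemma Gi_eq : K.Gi = Q.C + Q.c • (K.Gi * Q.H * Q.C) := by
  have h : K.Gi * ((K.G + Q.c • Q.H) * Q.C) = K.Gi := by rw [Q.mul_C, mul_one]
  rw [Matrix.add_mul, Matrix.mul_add, ← mul_assoc, K.inv_mul, one_mul, Matrix.smul_mul,
    Matrix.mul_smul, ← mul_assoc] at h
  exact h.symm

lemma C_eq : Q.C = Q.B + Q.c • (K.Gi * Q.H * Q.B) := by
  have h : K.Gi * K.G * Q.C = (Q.C + Q.c • (K.Gi * Q.H * Q.C)) * K.G * Q.C := by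
    rw [← Q.Gi_eq]
  rw [K.inv_mul, one_mul] at h
  rw [B]
  simp only [Matrix.add_mul, Matrix.smul_mul, mul_assoc] at h ⊢
  exact h

lemma HGi_comm : Q.C * Q.H * K.Gi = K.Gi * Q.H * Q.C := by
  have h1 : Q.C * (Q.H * K.Gi * (K.G + Q.c • Q.H)) * Q.C =
      Q.C * ((K.G + Q.c • Q.H) * K.Gi * Q.H) * Q.C := by
    congr 2
    rw [Matrix.mul_add, Matrix.add_mul, Matrix.add_mul, mul_assoc Q.H, K.inv_mul, mul_one,
      K.mul_inv, one_mul, Matrix.mul_smul, Matrix.smul_mul, Matrix.smul_mul]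
  have h2 : Q.C * (Q.H * K.Gi * (K.G + Q.c • Q.H)) * Q.C = Q.C * Q.H * K.Gi := by
    rw [mul_assoc, mul_assoc (Q.H * K.Gi), Q.mul_C, mul_one, ← mul_assoc]
  have h3 : Q.C * ((K.G + Q.c • Q.H) * K.Gi * Q.H) * Q.C = K.Gi * Q.H * Q.C := by
    rw [mul_assoc (K.G + Q.c • Q.H), ← mul_assoc Q.C, Q.C_mul, one_mul]
  rw [← h2, h1, h3]

lemma GiHB : K.Gi * Q.H * Q.B = Q.C * Q.H * Q.C := by
  rw [B, ← mul_assoc, ← mul_assoc, ← Q.HGi_comm, mul_assoc (Q.C * Q.H), K.inv_mul, mul_one]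

/-- the curvature terms -/
lemma curv_terms :
    ∑ k, ∑ l, (Q.C l k * (Q.C * (K.R k l * K.Gi * Q.H)).trace
      + (Q.C * (K.R k l * K.Gi * Q.H) * Q.C) l k
      + 2 * (Q.C * (K.R k l * K.Gi * Q.H) * Q.B) l k
      - 2 * (Q.B * (K.R k l * K.Gi * Q.H) * Q.C) l k) =
    2 * (Q.C * Q.H * Q.C * K.Ric).trace := by
  have e1 : ∑ k, ∑ l, Q.C l k * (Q.C * (K.R k l * K.Gi * Q.H)).trace =
      Phi K Q.C (K.Gi * Q.H * Q.C) := by
    refine Finset.sum_congr rfl fun k _ => Finset.sum_congr rfl fun l _ => ?_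
    congr 1
    rw [mul_assoc (K.R k l), ← mul_assoc Q.C, Matrix.trace_mul_comm, ← mul_assoc]
  have e2 : ∑ k, ∑ l, (Q.C * (K.R k l * K.Gi * Q.H) * Q.C) l k =
      Phi K Q.C (K.Gi * Q.H * Q.C) := by
    rw [← Phi_mid]
    refine Finset.sum_congr rfl fun k _ => Finset.sum_congr rfl fun l _ => ?_
    simp only [mul_assoc]
  have e3 : ∑ k, ∑ l, (Q.C * (K.R k l * K.Gi * Q.H) * Q.B) l k =
      Phi K Q.C (K.Gi * Q.H * Q.B) := by
    rw [← Phi_mid]
    refine Finset.sum_congr rfl fun k _ => Finset.sum_congr rfl fun l _ => ?_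
    simp only [mul_assoc]
  have e4 : ∑ k, ∑ l, (Q.B * (K.R k l * K.Gi * Q.H) * Q.C) l k =
      Phi K Q.B (K.Gi * Q.H * Q.C) := by
    rw [← Phi_mid]
    refine Finset.sum_congr rfl fun k _ => Finset.sum_congr rfl fun l _ => ?_
    simp only [mul_assoc]
  have s : ∑ k, ∑ l, (Q.C l k * (Q.C * (K.R k l * K.Gi * Q.H)).trace
      + (Q.C * (K.R k l * K.Gi * Q.H) * Q.C) l k
      + 2 * (Q.C * (K.R k l * K.Gi * Q.H) * Q.B) l k
      - 2 * (Q.B * (K.R k l * K.Gi * Q.H) * Q.C) l k) =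
      2 * Phi K Q.C (K.Gi * Q.H * Q.C) + 2 * Phi K Q.C (K.Gi * Q.H * Q.B)
        - 2 * Phi K Q.B (K.Gi * Q.H * Q.C) := by
    simp only [Finset.sum_add_distrib, Finset.sum_sub_distrib, ← Finset.mul_sum, e1, e2, e3, e4]
    ring
  have t1 : Phi K Q.C (K.Gi * Q.H * Q.C) = Phi K Q.B (K.Gi * Q.H * Q.C)
      + Q.c * Phi K (K.Gi * Q.H * Q.B) (K.Gi * Q.H * Q.C) := by
    conv_lhs => rw [Q.C_eq]
    rw [Phi_add_left, Phi_smul_left, ← Q.C_eq]
  have t2 : (K.Gi * Q.H * Q.B * K.Ric).trace = Phi K Q.C (K.Gi * Q.H * Q.B)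
      + Q.c * Phi K (K.Gi * Q.H * Q.C) (K.Gi * Q.H * Q.B) := by
    rw [← Phi_Gi]
    conv_lhs => rw [Q.Gi_eq]
    rw [Phi_add_left, Phi_smul_left, ← Q.Gi_eq]
  rw [s, ← Q.GiHB, t2, t1, Phi_symm K (K.Gi * Q.H * Q.C) (K.Gi * Q.H * Q.B)]
  ring

end QDat

end Vale.Agent.P272.K.QN
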