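import Vale.Agent.P272.K.QN.H705.Alg2

/-!
# The divergence identity for the weighted vector field (conclusion, algebra)
-/

namespace Vale.Agent.P272.K.QN

open Matrix Vale.Agent.P272.K.P1

set_option linter.unusedSectionVars false

namespace QDat

variable {n : ℕ} {A : Type*} [CommRing A] [StarRing A] {W : WAlg n A} {K : KMet W} (Q : QDat K)

/-- contraction of `E` -/
def cEA : A := ∑ k, ∑ l, (Q.C l k * (Q.C * K.E Q.H k l).trace + (Q.C * K.E Q.H k l * Q.C) l k)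

/-- quadratic form in `N` -/
def cNA : A := ∑ k, ∑ l,
    (-Q.c * ((Q.C * (Q.N l)ᴴ).trace * (Q.C l k * (Q.C * Q.N k).trace + (Q.C * Q.N k * Q.C) l k)
        + (Q.C * (Q.N l)ᴴ * Q.C) l k * (Q.C * Q.N k).trace
        + Q.C l k * (Q.C * (Q.N l)ᴴ * Q.C * Q.N k).trace
        + (Q.C * (Q.N l)ᴴ * Q.C * Q.N k * Q.C) l k
        + (Q.C * Q.N k * Q.C * (Q.N l)ᴴ * Q.C) l k)
      + 2 * Q.c * (-((Q.C * (Q.N l)ᴴ).trace * (Q.C * Q.N k * Q.B) l k)
        - (Q.C * Q.N k * Q.B * (Q.N l)ᴴ * Q.C) l k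
        + (Q.C * Q.N k).trace * (Q.C * (Q.N l)ᴴ * Q.B) l k
        + (Q.C * (Q.N l)ᴴ * Q.B * Q.N k * Q.C) l k))

/-- the target expression -/
def T : A := Q.cEA + 2 * (Q.C * Q.H * Q.C * K.Ric).trace + Q.cNA

/-- the antisymmetric difference -/
def dif : A :=
  2 * Q.c * (∑ k, ∑ l, (Q.B * (Q.N l)ᴴ * Q.C * Q.N k * Q.C) l k
      - ∑ k, ∑ l, (Q.C * (Q.N l)ᴴ * Q.C * Q.N k * Q.B) l k)
    + 2 * Q.c * (∑ k, ∑ l, (Q.B * Q.N k * Q.C * (Q.N l)ᴴ * Q.C) l k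
      - ∑ k, ∑ l, (Q.C * Q.N k * Q.C * (Q.N l)ᴴ * Q.B) l k)
    + 2 * Q.c * (∑ k, ∑ l, (Q.C * (Q.N l)ᴴ).trace * (Q.B * Q.N k * Q.C) l k
      - ∑ k, ∑ l, (Q.C * Q.N k).trace * (Q.C * (Q.N l)ᴴ * Q.B) l k)
    + 2 * (∑ k, ∑ l, (Q.C * K.E Q.H k l * Q.B) l k - ∑ k, ∑ l, (Q.B * K.E Q.H k l * Q.C) l k)

lemma sum_eq : ∑ k, ∑ l, (Q.Z k l l k - Q.c * (Q.C * (Q.N l)ᴴ).trace * Q.M k l k) =
    Q.T + Q.dif := by
  rw [T, ← Q.curv_terms, cEA, cNA, dif]
  simp only [Finset.mul_sum, ← Finset.sum_add_distrib, ← Finset.sum_sub_distrib]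
  refine Finset.sum_congr rfl fun k _ => Finset.sum_congr rfl fun l _ => ?_
  simp only [Z, M, T2, Matrix.mul_add, Matrix.add_mul, Matrix.add_apply, Matrix.sub_apply,
    Matrix.neg_apply, Matrix.smul_apply, smul_eq_mul, trace_add]
  ring

lemma star_sum_lk (P P' : Fin n → Fin n → Matrix (Fin n) (Fin n) A)
    (h : ∀ k l, (P k l)ᴴ = P' l k) :
    star (∑ k, ∑ l, P k l l k) = ∑ k, ∑ l, P' k l l k := by
  simp only [star_sum]
  rw [Finset.sum_comm]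
  refine Finset.sum_congr rfl fun k _ => Finset.sum_congr rfl fun l _ => ?_
  rw [← h l k, conjTranspose_apply]

lemma E_star (k l : Fin n) : (K.E Q.H k l)ᴴ = K.E Q.H l k := by
  have h1 : (W.D k (W.Db l Q.H))ᴴ = W.D l (W.Db k Q.H) := by
    rw [← W.Db_conjTranspose, ← W.D_conjTranspose, Q.herm, W.D_Db]
  have h2 : ∀ l, (W.Db l Q.H)ᴴ = W.D l Q.H := fun l => by
    rw [← W.D_conjTranspose, Q.herm]
  have h3 : ∀ l, (W.D l Q.H)ᴴ = W.Db l Q.H := fun l => by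
    rw [← W.Db_conjTranspose, Q.herm]
  rw [KMet.E, KMet.E]
  simp only [conjTranspose_add, conjTranspose_sub, conjTranspose_mul, h1, h2, h3,
    conjTranspose_conjTranspose, Q.herm]
  noncomm_ring

lemma star_dif : star Q.dif = -Q.dif := by
  have h1 : star (∑ k, ∑ l, (Q.B * (Q.N l)ᴴ * Q.C * Q.N k * Q.C) l k) =
      ∑ k, ∑ l, (Q.C * (Q.N l)ᴴ * Q.C * Q.N k * Q.B) l k :=
    star_sum_lk (fun k l => Q.B * (Q.N l)ᴴ * Q.C * Q.N k * Q.C)
      (fun k l => Q.C * (Q.N l)ᴴ * Q.C * Q.N k * Q.B) fun k l => by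
        simp only [conjTranspose_mul, Q.herm_B, Q.herm_C, conjTranspose_conjTranspose, mul_assoc]
  have h2 : star (∑ k, ∑ l, (Q.B * Q.N k * Q.C * (Q.N l)ᴴ * Q.C) l k) =
      ∑ k, ∑ l, (Q.C * Q.N k * Q.C * (Q.N l)ᴴ * Q.B) l k :=
    star_sum_lk (fun k l => Q.B * Q.N k * Q.C * (Q.N l)ᴴ * Q.C)
      (fun k l => Q.C * Q.N k * Q.C * (Q.N l)ᴴ * Q.B) fun k l => by
        simp only [conjTranspose_mul, Q.herm_B, Q.herm_C, conjTranspose_conjTranspose, mul_assoc]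
  have h3 : star (∑ k, ∑ l, (Q.C * K.E Q.H k l * Q.B) l k) =
      ∑ k, ∑ l, (Q.B * K.E Q.H k l * Q.C) l k :=
    star_sum_lk (fun k l => Q.C * K.E Q.H k l * Q.B)
      (fun k l => Q.B * K.E Q.H k l * Q.C) fun k l => by
        simp only [conjTranspose_mul, Q.herm_B, Q.herm_C, Q.E_star, mul_assoc]
  have h4 : star (∑ k, ∑ l, (Q.C * (Q.N l)ᴴ).trace * (Q.B * Q.N k * Q.C) l k) =
      ∑ k, ∑ l, (Q.C * Q.N k).trace * (Q.C * (Q.N l)ᴴ * Q.B) l k := by
    have e := star_sum_lk (fun k l => (Q.C * (Q.N l)ᴴ).trace • (Q.B * Q.N k * Q.C))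
      (fun k l => (Q.C * Q.N k).trace • (Q.C * (Q.N l)ᴴ * Q.B)) fun k l => by
        have t : star (Q.C * (Q.N l)ᴴ).trace = (Q.C * Q.N l).trace := by
          rw [← trace_conjTranspose, conjTranspose_mul, conjTranspose_conjTranspose, Q.herm_C,
            Matrix.trace_mul_comm]
        rw [conjTranspose_smul, t]
        simp only [conjTranspose_mul, Q.herm_B, Q.herm_C, mul_assoc]
    simpa only [Matrix.smul_apply, smul_eq_mul] using e
  have h1' := congrArg star h1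
  have h2' := congrArg star h2
  have h3' := congrArg star h3
  have h4' := congrArg star h4
  rw [star_star] at h1' h2' h3' h4'
  rw [dif]
  simp only [star_add, star_sub, star_mul', Q.c_star, h1, h2, h3, h4, ← h1', ← h2', ← h3', ← h4']
  rw [h1', h2', h3', h4']
  have t : star (2 : A) = 2 := by
    have := star_natCast (R := A) 2
    simpa using this
  rw [t]
  ring

lemma star_wt : star Q.wt = Q.wt := by
  rw [wt, star_mul', star_pow, ← det_conjTranspose, ← det_conjTranspose, K.herm, Q.herm_C]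

/-- **the divergence identity** -/
theorem div_add_star : ∑ l, W.db l (Q.V l) + star (∑ l, W.db l (Q.V l)) =
    Q.wt * Q.T + star (Q.wt * Q.T) := by
  rw [Q.div_V, Q.sum_eq, mul_add, star_add, star_mul' Q.wt Q.dif, Q.star_dif, Q.star_wt]
  ring

end QDat

end Vale.Agent.P272.K.QN
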