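import Vale.Agent.P272.K.QN.Defs
import Vale.Agent.P272.K.QN.Stmt
import Vale.Agent.P272.K.T4.Laws
import Mathlib.Topology.UrysohnsLemma

/-!
# A Hermitian metric of quasi-negative curvature satisfies the curvature bound `CurvLe κ`
-/

open scoped Manifold ContDiff Topology ComplexConjugate ComplexOrder
open TopologicalSpace (Opens)
open Matrix MeasureTheory
open Vale.Agent.P272.K.P1

set_option linter.all false

noncomputable section

namespace Vale.Agent.P272.K.QN

variable {n : ℕ}

/-- a Hermitian metric with holomorphic sectional curvature `≤ -κ` at `z` -/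
theorem curvLe_of_met {O : Opens (Cm n)} {h : Cm n → Matrix (Fin n) (Fin n) ℂ} (hh : Met O h)
    {z : Cm n} (hz : z ∈ O) {κ : ℝ}
    (hκ : ∀ ξ : Cm n, (K.quart (curv h z) ξ).re ≤ -κ * (quad (h z) ξ).re ^ 2) :
    CurvLe κ h z := by
  obtain ⟨B, hB⟩ := C2.exists_factor (hh.pos z hz).posSemidef
  have hu : IsUnit B.det := by
    refine isUnit_iff_ne_zero.2 fun h0 => ?_
    have := (hh.pos z hz).det_pos
    rw [hB, Matrix.det_mul, h0, mul_zero] at this
    exact lt_irrefl _ this
  have h1 : B⁻¹ * B = 1 := Matrix.nonsing_inv_mul _ hu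
  have huH : IsUnit (Bᴴ).det := by rw [Matrix.det_conjTranspose]; exact hu.star
  have hinv : (h z)⁻¹ = B⁻¹ * (B⁻¹)ᴴ := by
    rw [hB, Matrix.mul_inv_rev, Matrix.conjTranspose_nonsing_inv]
  refine ⟨n, Bᴴ, fun k => C2.DM k h z * B⁻¹,
    fun k l => C2.D2 k l h z - C2.DM k h z * (h z)⁻¹ * C2.DMb l h z, ?_, ?_, ?_, ?_⟩
  · rw [Matrix.conjTranspose_conjTranspose]; exact hB
  · intro k
    rw [Matrix.conjTranspose_conjTranspose, Matrix.mul_assoc, h1, Matrix.mul_one]
  · intro k l
    have h2 : C2.DMb l h z = (C2.DM l h z)ᴴ := DMb_eq_of_met hh ⟨z, hz⟩ l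
    show C2.D2 k l h z = C2.D2 k l h z - C2.DM k h z * (h z)⁻¹ * C2.DMb l h z +
      C2.DM k h z * B⁻¹ * (C2.DM l h z * B⁻¹)ᴴ
    rw [hinv, h2, Matrix.conjTranspose_mul]
    simp only [Matrix.mul_assoc]
    abel
  · intro ξ
    have h3 : P1.quart (fun k l => C2.D2 k l h z - C2.DM k h z * (h z)⁻¹ * C2.DMb l h z) ξ ξ ξ ξ =
        -K.quart (curv h z) ξ := by
      unfold P1.quart K.quart
      simp only [Met.curv_eq, ← Finset.sum_neg_distrib]
      refine Finset.sum_congr rfl fun i _ => Finset.sum_congr rfl fun j _ =>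
        Finset.sum_congr rfl fun k _ => Finset.sum_congr rfl fun l _ => ?_
      simp only [Matrix.add_apply, Matrix.sub_apply, Matrix.neg_apply]
      ring
    rw [h3, Complex.neg_re]
    have h4 : herm (h z) ξ = quad (h z) ξ := rfl
    rw [h4]
    linarith [hκ ξ]

section
variable {X : Type*} [TopologicalSpace X] [ChartedSpace (Cm n) X]
  {h : Chart n X → Cm n → Matrix (Fin n) (Fin n) ℂ}

lemma isSemi_of_isHermitian (hh : IsHermitian h) : IsSemi h where
  smooth := hh.smooth
  pos e x hx := (hh.posDef e x hx).posSemidef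
  change := hh.change

/-- a Hermitian metric with holomorphic sectional curvature `≤ -κ` at a point -/
theorem curvLe_of_hermitian (hh : IsHermitian h) {e : Chart n X} {x : X} (hx : At e x) {κ : ℝ}
    (hκ : ∀ ξ : Cm n, (K.quart (curv (h e) (e x)) ξ).re ≤ -κ * (quad (h e (e x)) ξ).re ^ 2) :
    CurvLe κ (h e) (e x) := by
  have hM : Met (⟨e.target, e.open_target⟩ : Opens (Cm n)) (h e) :=
    ⟨fun z hz i j => hh.smooth_target hx.1 hz i j, fun z hz => hh.posDef_target hx.1 hz⟩
  exact curvLe_of_met hM hx.mem_target hκ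

/-- **the curvature bound of a quasi-negative Hermitian metric** -/
theorem exists_kappa [T2Space X] [CompactSpace X] [IsManifold 𝓘(ℂ, Cm n) ω X]
    (hh : IsHermitian h) (hq : QuasiNegHSC h) :
    ∃ κ : X → ℝ, Continuous κ ∧ (∀ x, 0 ≤ κ x) ∧
      (∀ e x, At e x → ∀ ξ : Cm n,
        (K.quart (curv (h e) (e x)) ξ).re ≤ -κ x * (quad (h e (e x)) ξ).re ^ 2) ∧
      (∀ e x, At e x → CurvLe (κ x) (h e) (e x)) ∧
      ∃ e x, At e x ∧ 0 < κ x ∧ (h e (e x)).PosDef := by
  classical
  obtain ⟨hle, x₀, hx₀⟩ := hq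
  set c := chartAt (Cm n) x₀ with hc
  have hAt : At c x₀ := ⟨chart_mem_atlas _ x₀, mem_chart_source _ x₀⟩
  set S : Set (Cm n) := Metric.sphere 0 1 with hS
  have hScomp : IsCompact S := isCompact_sphere 0 1
  -- negativity near `x₀`
  have hcont : ∀ ξ ∈ S, ∀ᶠ p : Cm n × Cm n in 𝓝 (c x₀, ξ), (K.quart (curv (h c) p.1) p.2).re < 0 := by
    intro ξ hξ
    have hξ0 : ξ ≠ 0 := by
      rintro rfl
      simp [hS] at hξ
    have hc1 : ContinuousAt (fun p : Cm n × Cm n => (K.quart (curv (h c) p.1) p.2).re)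
        (c x₀, ξ) := by
      refine Complex.continuous_re.continuousAt.comp ?_
      unfold K.quart
      refine tendsto_finset_sum _ fun i _ => tendsto_finset_sum _ fun j _ =>
        tendsto_finset_sum _ fun k _ => tendsto_finset_sum _ fun l _ => ?_
      have hc2 : ContinuousAt (fun p : Cm n × Cm n => curv (h c) p.1 i j k l) (c x₀, ξ) := by
        have := ((hh.continuousOn_curv hAt.1 i j k l).continuousAt
          (c.open_target.mem_nhds hAt.mem_target))
        exact ContinuousAt.comp (f := fun p : Cm n × Cm n => p.1)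
          (g := fun z => curv (h c) z i j k l) this continuousAt_fst
      have hc3 : Continuous (fun p : Cm n × Cm n => p.2 i * cj (p.2 j) * p.2 k * cj (p.2 l)) := by
        have hcj : Continuous (fun z : ℂ => cj z) := Complex.continuous_conj
        fun_prop
      exact hc2.mul hc3.continuousAt
    have h1 : (K.quart (curv (h c) (c x₀)) ξ).re < 0 := hx₀ c hAt ξ hξ0
    exact hc1.eventually_lt continuousAt_const h1
  have hnear : ∀ᶠ z in 𝓝 (c x₀), ∀ ξ ∈ S, (K.quart (curv (h c) z) ξ).re < 0 := by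
    have := hScomp.eventually_forall_of_forall_eventually (x₀ := c x₀)
      (P := fun z ξ => (K.quart (curv (h c) z) ξ).re < 0) hcont
    exact this
  obtain ⟨r, hr, hball⟩ := Metric.nhds_basis_closedBall.mem_iff.1
    (Filter.inter_mem (c.open_target.mem_nhds hAt.mem_target) hnear)
  set Kc : Set (Cm n) := Metric.closedBall (c x₀) r with hKc
  obtain ⟨k, hk, hkb⟩ := exists_quartic_bound (isCompact_closedBall (c x₀) r)
    (fun z => curv (h c) z) (fun z => h c z)
    (fun i j k l => (hh.continuousOn_curv hAt.1 i j k l).mono fun z hz => (hball hz).1)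
    (fun i j => (hh.continuousOn_entry hAt.1 i j).mono fun z hz => (hball hz).1)
    (by
      intro z hz ξ hξ
      obtain ⟨η, hηS, t, ht, rfl⟩ := unit_decomp hξ
      rw [quart_smul, Complex.re_ofReal_mul]
      have h2 : (K.quart (curv (h c) z) η).re < 0 := (hball hz).2 η hηS
      have : 0 < t ^ 4 := by positivity
      nlinarith)
  -- the cut-off
  set W : Set X := c.source ∩ c ⁻¹' Metric.ball (c x₀) r with hW
  have hWo : IsOpen W := c.isOpen_inter_preimage Metric.isOpen_ball
  have hxW : x₀ ∈ W := ⟨hAt.2, by simp [hr]⟩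
  obtain ⟨ρ, hρ0, hρ1, hρ⟩ := exists_continuous_zero_one_of_isClosed (s := Wᶜ) (t := {x₀})
    hWo.isClosed_compl isClosed_singleton (by
      rw [Set.disjoint_singleton_right]; exact fun h => h hxW)
  have key : ∀ e x, At e x → ∀ ξ : Cm n,
      (K.quart (curv (h e) (e x)) ξ).re ≤ -(k * ρ x) * (quad (h e (e x)) ξ).re ^ 2 := by
    intro e x hx ξ
    by_cases hxW : x ∈ W
    · have hcx : At c x := ⟨hAt.1, hxW.1⟩
      rw [T4.quart_change hh hx hcx, T4.quad_change hh hx hcx]
      have h1 := hkb (c x) (Metric.ball_subset_closedBall hxW.2) (jacM e c x *ᵥ ξ)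
      refine h1.trans ?_
      have h2 : k * ρ x ≤ k := by
        have := (hρ x).2
        nlinarith
      have := mul_le_mul_of_nonneg_right h2 (sq_nonneg (quad (h c (c x)) (jacM e c x *ᵥ ξ)).re)
      linarith
    · have h0 : ρ x = 0 := hρ0 hxW
      rw [h0]
      have := hle e x hx ξ
      have h3 : (K.quart (curv (h e) (e x)) ξ).re ≤ 0 := this
      simpa using h3
  refine ⟨fun x => k * ρ x, continuous_const.mul ρ.continuous,
    fun x => mul_nonneg hk.le (hρ x).1, key, fun e x hx => curvLe_of_hermitian hh hx (key e x hx),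
    c, x₀, hAt, ?_, hh.posDef c x₀ hAt⟩
  have : ρ x₀ = 1 := hρ1 (Set.mem_singleton x₀)
  simp only [this, mul_one]
  exact hk

end

end Vale.Agent.P272.K.QN
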