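import Vale.Agent.P272.K.QN.Defs
import Vale.Agent.P272.K.QN.H705.Alg3

/-!
# Block Q1: the divergence identity
-/

open scoped Manifold ContDiff Topology ComplexConjugate ComplexOrder
open TopologicalSpace (Opens)
open Matrix MeasureTheory
open Vale.Agent.P272.K.P1

noncomputable section

namespace Vale.Agent.P272.K.QN

variable {n : ℕ} {O : Opens (Cm n)} {g h : Cm n → Matrix (Fin n) (Fin n) ℂ}

lemma evM_smul (x : O) (a : Sm O) (M : Matrix (Fin n) (Fin n) (Sm O)) :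
    Sm.evM x (a • M) = Sm.ev x a • Sm.evM x M := by
  ext i j
  rw [Sm.evM_apply, Matrix.smul_apply, Matrix.smul_apply, smul_eq_mul, map_mul, smul_eq_mul,
    Sm.evM_apply]

lemma ev_algebraMap (x : O) (s : ℂ) : Sm.ev x (algebraMap ℂ (Sm O) s) = s :=
  AlgHomClass.commutes (Sm.ev x) s

lemma met_add (hg : Met O g) (hs : ∀ z ∈ O, ∀ i j, ContDiffAt ℝ ∞ (fun y => h y i j) z)
    (hp : ∀ z ∈ O, (h z).PosSemidef) {s : ℝ} (hs0 : 0 ≤ s) :
    Met O (fun z => g z + (s : ℂ) • h z) where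
  smooth z hz i j := by
    simp only [Matrix.add_apply, Matrix.smul_apply, smul_eq_mul]
    exact (hg.smooth z hz i j).add (contDiffAt_const.mul (hs z hz i j))
  pos z hz := (hg.pos z hz).add_posSemidef ((hp z hz).smul (by exact_mod_cast hs0))

section
variable (hg : Met O g) (hs : ∀ z ∈ O, ∀ i j, ContDiffAt ℝ ∞ (fun y => h y i j) z)
    (hp : ∀ z ∈ O, (h z).PosSemidef)
    (hc : ∀ z ∈ O, ∀ i j l, dz l (fun y => g y i j) z = dz i (fun y => g y l j) z)
    {s : ℝ} (hs0 : 0 ≤ s)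

/-- `h` as a matrix over `Sm O` -/
def hM : Matrix (Fin n) (Fin n) (Sm O) := Sm.mkM h fun i j z hz => hs z hz i j

lemma evM_hM (x : O) : Sm.evM x (hM hs) = h x := Sm.evM_mkM x h _

lemma hM_apply (i j : Fin n) :
    hM hs i j = Sm.mk (fun z => h z i j) (fun z hz => hs z hz i j) := rfl

lemma evM_D_hM (x : O) (i : Fin n) : Sm.evM x ((Sm.W O).D i (hM hs)) = C2.DM i h x := by
  ext a b
  rw [Sm.evM_apply, WAlg.D_apply, Sm.W_d, hM_apply, Sm.ev_d_mk, C2.DM_apply]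

lemma evM_Db_hM (x : O) (i : Fin n) : Sm.evM x ((Sm.W O).Db i (hM hs)) = C2.DMb i h x := by
  ext a b
  rw [Sm.evM_apply, WAlg.Db_apply, Sm.W_db, hM_apply, Sm.ev_db_mk, C2.DMb_apply]

lemma evM_D_Db_hM (x : O) (i j : Fin n) :
    Sm.evM x ((Sm.W O).D i ((Sm.W O).Db j (hM hs))) = C2.D2 i j h x := by
  ext a b
  rw [Sm.evM_apply, WAlg.D_apply, WAlg.Db_apply, Sm.W_d, Sm.W_db, hM_apply, Sm.ev_d_db_mk]
  rfl

/-- the data over `Sm O` -/
def qd : QDat (hg.kmet hc) where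
  H := hM hs
  C := (met_add hg hs hp hs0).Mi
  c := algebraMap ℂ (Sm O) (s : ℂ)
  herm := Sm.evM_ext fun x => by
    rw [Sm.evM_conjTranspose, evM_hM, (hp x x.2).isHermitian.eq]
  c_star := Sm.ev_ext fun x => by
    rw [map_star, ev_algebraMap, Complex.star_def, Complex.conj_ofReal]
  c_db l := Sm.ev_ext fun x => by
    rw [Sm.W_db, Sm.ev_db, map_zero]
    have : Sm.fn (algebraMap ℂ (Sm O) (s : ℂ)) =ᶠ[𝓝 (x : Cm n)] fun _ => (s : ℂ) := by
      filter_upwards [O.isOpen.mem_nhds x.2] with y hy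
      have := ev_algebraMap (⟨y, hy⟩ : O) (s : ℂ)
      rwa [Sm.ev_apply] at this
    rw [INT.dzb_congr this, INT.dzb_const]
  mul_C := by
    have e : (hg.kmet hc).G + (algebraMap ℂ (Sm O) (s : ℂ)) • hM hs = (met_add hg hs hp hs0).M :=
      Sm.evM_ext fun x => by
        rw [Sm.evM_add, evM_smul, ev_algebraMap, evM_hM, Met.evM_M]
        rw [show Sm.evM x (hg.kmet hc).G = g x from hg.evM_M x]
    rw [e, Met.M_mul_Mi]
  C_mul := by
    have e : (hg.kmet hc).G + (algebraMap ℂ (Sm O) (s : ℂ)) • hM hs = (met_add hg hs hp hs0).M :=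
      Sm.evM_ext fun x => by
        rw [Sm.evM_add, evM_smul, ev_algebraMap, evM_hM, Met.evM_M]
        rw [show Sm.evM x (hg.kmet hc).G = g x from hg.evM_M x]
    rw [e, Met.Mi_mul_M]

lemma evM_C (x : O) : Sm.evM x (qd hg hs hp hc hs0).C = Cf s g h x :=
  (met_add hg hs hp hs0).evM_Mi x

lemma evM_H (x : O) : Sm.evM x (qd hg hs hp hc hs0).H = h x := evM_hM hs x

lemma evM_G (x : O) : Sm.evM x (hg.kmet hc).G = g x := hg.evM_M x

lemma evM_B (x : O) : Sm.evM x (qd hg hs hp hc hs0).B = Bf s g h x := by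
  rw [QDat.B, Sm.evM_mul, Sm.evM_mul, evM_C, evM_G, Bf]

lemma evM_N (x : O) (k : Fin n) : Sm.evM x ((qd hg hs hp hc hs0).N k) = Nf g h x k := by
  rw [QDat.N, Sm.evM_sub, Sm.evM_mul, evM_Ga hg hc, evM_H, Nf]
  congr 1
  exact evM_D_hM hs x k

lemma evM_E' (x : O) (i j : Fin n) :
    Sm.evM x ((hg.kmet hc).E (qd hg hs hp hc hs0).H i j) = Ef g h x i j := by
  rw [KMet.E, Sm.evM_add, Sm.evM_sub, Sm.evM_sub, Sm.evM_mul, Sm.evM_mul, Sm.evM_mul,
    Sm.evM_mul, Sm.evM_conjTranspose, evM_H, evM_Ga hg hc, evM_Ga hg hc, Ef]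
  have e1 : Sm.evM x ((Sm.W O).D i ((Sm.W O).Db j (qd hg hs hp hc hs0).H)) = C2.D2 i j h x :=
    evM_D_Db_hM hs x i j
  have e2 : Sm.evM x ((Sm.W O).D i (qd hg hs hp hc hs0).H) = C2.DM i h x := evM_D_hM hs x i
  have e3 : Sm.evM x ((Sm.W O).Db j (qd hg hs hp hc hs0).H) = C2.DMb j h x := evM_Db_hM hs x j
  rw [e1, e2, e3]

lemma ev_c (x : O) : Sm.ev x (qd hg hs hp hc hs0).c = (s : ℂ) := ev_algebraMap x _

lemma ev_wt (x : O) : Sm.ev x (qd hg hs hp hc hs0).wt = wt s g h x := by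
  rw [QDat.wt, map_mul, map_pow, Sm.ev_det, Sm.ev_det, evM_G, evM_C, wt]

lemma ev_two (x : O) : Sm.ev x (2 : Sm O) = 2 := map_ofNat (Sm.ev x) 2

lemma ev_V (x : O) (l : Fin n) : Sm.ev x ((qd hg hs hp hc hs0).V l) = vf s g h l x := by
  rw [QDat.V, map_mul, ev_wt, map_sum, vf]
  congr 1
  refine Finset.sum_congr rfl fun k _ => ?_
  rw [← Sm.evM_apply, QDat.M]
  simp only [Sm.evM_sub, Sm.evM_add, Sm.evM_mul, evM_smul, evM_C, evM_B, evM_N, Sm.ev_trace,
    ev_two, Matrix.sub_apply, Matrix.add_apply, Matrix.smul_apply, smul_eq_mul]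
  ring

lemma ev_T (x : O) : Sm.ev x (qd hg hs hp hc hs0).T =
    cE (Cf s g h x) (Ef g h x)
    + 2 * (Cf s g h x * h x * Cf s g h x *
        -cHess (fun y => Real.log (g y).det.re) x).trace
    + cN s (Cf s g h x) (Bf s g h x) (Nf g h x) := by
  have e1 : ∀ M : Matrix (Fin n) (Fin n) (Sm O), ∀ i j, Sm.ev x (M i j) = Sm.evM x M i j :=
    fun _ _ _ => rfl
  rw [QDat.T, map_add, map_add, map_mul, ev_two, QDat.cEA, QDat.cNA, cE, cN]
  simp only [map_sum, map_add, map_sub, map_mul, map_neg, e1, Sm.ev_trace, Sm.evM_mul,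
    Sm.evM_conjTranspose, evM_C, evM_B, evM_N, evM_E', evM_H, evM_Ric, ev_c, ev_two]

end

/-- **Block Q1.** -/
theorem identBlock (n : ℕ) : IdentBlock n := by
  intro O g h hg hs hp hc s hs0 z hz
  set x : O := ⟨z, hz⟩ with hx
  have key := congrArg (Sm.ev x) (qd hg hs hp hc hs0).div_add_star
  have e1 : ∀ l, Sm.ev x ((Sm.W O).db l ((qd hg hs hp hc hs0).V l)) = dzb l (vf s g h l) z := by
    intro l
    rw [Sm.W_db, Sm.ev_db]
    have : Sm.fn ((qd hg hs hp hc hs0).V l) =ᶠ[𝓝 (x : Cm n)] vf s g h l := by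
      filter_upwards [O.isOpen.mem_nhds x.2] with y hy
      have := ev_V hg hs hp hc hs0 (⟨y, hy⟩ : O) l
      rwa [Sm.ev_apply] at this
    rw [INT.dzb_congr this]
  rw [map_add, map_add, map_star, map_star, map_sum, map_mul, ev_wt, ev_T] at key
  simp only [e1] at key
  have key2 := congrArg Complex.re key
  rw [Complex.add_re, Complex.add_re, Complex.star_def, Complex.conj_re, Complex.conj_re] at key2
  rw [rhs]
  have hzx : (x : Cm n) = z := rfl
  rw [hzx] at key2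
  linarith [key2]

end Vale.Agent.P272.K.QN
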