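import Vale.Agent.P272.K.QN.H705.PullLoc

/-!
# Pull-back of a Hermitian metric by a holomorphic map of complex manifolds
-/

open scoped Manifold ContDiff Topology ComplexConjugate ComplexOrder
open TopologicalSpace (Opens)
open Matrix MeasureTheory
open Vale.Agent.P272.K.P1
open Vale.Agent.P272.K.C2 (DM DMb MD MC D2)

set_option linter.all false

noncomputable section

namespace Vale.Agent.P272.K.QN

variable {n m : ℕ} {X Y : Type*} [TopologicalSpace X] [ChartedSpace (Cm n) X]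
  [TopologicalSpace Y] [ChartedSpace (Cm m) Y]

/-- the expression of `F : X → Y` in the charts `e` of `X` and `e'` of `Y` -/
def loc (F : X → Y) (e : Chart n X) (e' : Chart m Y) (z : Cm n) : Cm m := e' (F (e.symm z))

/-- the pull-back `F^* h`; its coefficient matrix in the chart `e` is `Jᵀ h J̄`, `J` the Jacobian
matrix of `F` -/
def pb (F : X → Y) (h : Chart m Y → Cm m → Matrix (Fin m) (Fin m) ℂ) (e : Chart n X) (z : Cm n) :
    Matrix (Fin n) (Fin n) ℂ :=
  pl (h (chartAt (Cm m) (F (e.symm z)))) (loc F e (chartAt (Cm m) (F (e.symm z)))) z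

variable [IsManifold 𝓘(ℂ, Cm n) ω X] [IsManifold 𝓘(ℂ, Cm m) ω Y] {F : X → Y}
  {h : Chart m Y → Cm m → Matrix (Fin m) (Fin m) ℂ} {e e₂ : Chart n X} {e' e₂' : Chart m Y} {x : X}

lemma loc_apply (hx : At e x) : loc F e e' (e x) = e' (F x) := by
  unfold loc; rw [hx.left_inv]

/-- near `e x` everything is in the charts -/
lemma nhds_loc (hF : Continuous F) (hx : At e x) (hx' : At e' (F x)) :
    ∀ᶠ z in 𝓝 (e x), z ∈ e.target ∧ At e (e.symm z) ∧ At e' (F (e.symm z)) := by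
  have h2 : ∀ᶠ z in 𝓝 (e x), F (e.symm z) ∈ e'.source := by
    have h3 : ContinuousAt (fun z => F (e.symm z)) (e x) :=
      hF.continuousAt.comp (e.continuousAt_symm hx.mem_target)
    have h4 : F (e.symm (e x)) ∈ e'.source := by rw [hx.left_inv]; exact hx'.2
    exact h3.eventually (e'.open_source.mem_nhds h4)
  filter_upwards [hx.nhds_target, h2] with z hz hz'
  exact ⟨hz, At.of_target hx.1 hz, ⟨hx'.1, hz'⟩⟩

lemma loc_contDiffAt (hF : ContMDiff 𝓘(ℂ, Cm n) 𝓘(ℂ, Cm m) ω F) (hx : At e x)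
    (hx' : At e' (F x)) : ContDiffAt ℂ ω (loc F e e') (e x) := by
  rw [← contMDiffAt_iff_contDiffAt]
  have h1 := chart_symm_contMDiffAt hx.1 hx.mem_target
  have h2 : ContMDiffAt 𝓘(ℂ, Cm n) 𝓘(ℂ, Cm m) ω (fun z => F (e.symm z)) (e x) :=
    ContMDiffAt.comp (e x) (g := F) (hF _) h1
  refine ContMDiffAt.comp (e x) (g := e') ?_ h2
  rw [hx.left_inv]
  exact chart_contMDiffAt hx'

/-- change of the chart of `Y` -/
lemma jm_loc_right (hF : ContMDiff 𝓘(ℂ, Cm n) 𝓘(ℂ, Cm m) ω F) (hx : At e x) (hx' : At e' (F x))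
    (hx2 : At e₂' (F x)) :
    jm (loc F e e₂') (e x) = jacM e' e₂' (F x) * jm (loc F e e') (e x) := by
  have h1 : loc F e e₂' =ᶠ[𝓝 (e x)] fun z => e₂' (e'.symm (loc F e e' z)) := by
    filter_upwards [nhds_loc hF.continuous hx hx'] with z hz
    unfold loc
    rw [hz.2.2.left_inv]
  rw [jm_congr h1]
  have h2 : loc F e e' (e x) = e' (F x) := loc_apply hx
  have := jm_comp (F := loc F e e') (σ := fun z => e₂' (e'.symm z)) (z := e x)
    (by rw [h2]; exact transition_differentiableAt hx' hx2)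
    ((loc_contDiffAt hF hx hx').differentiableAt (by simp))
  rw [this, h2]
  rfl

/-- change of the chart of `X` -/
lemma jm_loc_left (hF : ContMDiff 𝓘(ℂ, Cm n) 𝓘(ℂ, Cm m) ω F) (hx : At e x) (hx2 : At e₂ x)
    (hx' : At e' (F x)) :
    jm (loc F e e') (e x) = jm (loc F e₂ e') (e₂ x) * jacM e e₂ x := by
  have h1 : loc F e e' =ᶠ[𝓝 (e x)] fun z => loc F e₂ e' (e₂ (e.symm z)) := by
    filter_upwards [hx.nhds_at hx2] with z hz
    unfold loc
    rw [hz.2.2.left_inv]
  rw [jm_congr h1]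
  have h2 : e₂ (e.symm (e x)) = e₂ x := by rw [hx.left_inv]
  have := jm_comp (F := fun z => e₂ (e.symm z)) (σ := loc F e₂ e') (z := e x)
    (by rw [h2]; exact (loc_contDiffAt hF hx2 hx').differentiableAt (by simp))
    (transition_differentiableAt hx hx2)
  rw [this, h2]
  rfl

/-- the pull-back does not depend on the chart of `Y` -/
lemma pl_indep (hF : ContMDiff 𝓘(ℂ, Cm n) 𝓘(ℂ, Cm m) ω F) (hh : IsHermitian h) (hx : At e x)
    (hx' : At e' (F x)) (hx2 : At e₂' (F x)) :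
    pl (h e₂') (loc F e e₂') (e x) = pl (h e') (loc F e e') (e x) := by
  unfold pl
  rw [jm_loc_right hF hx hx' hx2, loc_apply hx, loc_apply hx, hh.change e' e₂' (F x) hx' hx2,
    Matrix.transpose_mul, Matrix.map_mul]
  simp only [Matrix.mul_assoc]

lemma pb_apply (hF : ContMDiff 𝓘(ℂ, Cm n) 𝓘(ℂ, Cm m) ω F) (hh : IsHermitian h) (hx : At e x)
    (hx' : At e' (F x)) : pb F h e (e x) = pl (h e') (loc F e e') (e x) := by
  have hc : At (chartAt (Cm m) (F x)) (F x) := ⟨chart_mem_atlas _ _, mem_chart_source _ _⟩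
  unfold pb
  rw [hx.left_inv]
  exact pl_indep hF hh hx hx' hc

lemma pb_eventually (hF : ContMDiff 𝓘(ℂ, Cm n) 𝓘(ℂ, Cm m) ω F) (hh : IsHermitian h) (hx : At e x)
    (hx' : At e' (F x)) : pb F h e =ᶠ[𝓝 (e x)] pl (h e') (loc F e e') := by
  filter_upwards [nhds_loc hF.continuous hx hx'] with z hz
  have := pb_apply hF hh hz.2.1 hz.2.2
  rwa [e.right_inv hz.1] at this

lemma loc_smooth_h (hF : ContMDiff 𝓘(ℂ, Cm n) 𝓘(ℂ, Cm m) ω F) (hh : IsHermitian h) (hx : At e x)
    (hx' : At e' (F x)) (i j : Fin m) :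
    ContDiffAt ℝ ∞ (fun z => h e' (loc F e e' z) i j) (e x) := by
  have h1 := hh.smooth e' (F x) hx' i j
  rw [← loc_apply (F := F) (e' := e') hx] at h1
  exact h1.comp (e x) (((loc_contDiffAt hF hx hx').restrict_scalars ℝ).of_le le_top)

lemma posSemidefR {M : Matrix (Fin m) (Fin m) ℂ} (hM : M.PosSemidef)
    (J : Matrix (Fin m) (Fin n) ℂ) : (J.transpose * M * J.map (starRingEnd ℂ)).PosSemidef := by
  have := hM.conjTranspose_mul_mul_same (J.map (starRingEnd ℂ))
  have h2 : (J.map (starRingEnd ℂ)).conjTranspose = J.transpose := by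
    ext i j; simp [Matrix.conjTranspose_apply, Matrix.map_apply]
  rwa [h2] at this

/-- **the pull-back of a Hermitian metric is a semi-positive form** -/
theorem isSemi_pb (hF : ContMDiff 𝓘(ℂ, Cm n) 𝓘(ℂ, Cm m) ω F) (hh : IsHermitian h) :
    IsSemi (pb F h : Chart n X → Cm n → Matrix (Fin n) (Fin n) ℂ) where
  smooth e x hx i j := by
    set e' := chartAt (Cm m) (F x) with he'
    have hx' : At e' (F x) := ⟨chart_mem_atlas _ _, mem_chart_source _ _⟩
    have h1 : (fun z => pb F h e z i j) =ᶠ[𝓝 (e x)] fun z => pl (h e') (loc F e e') z i j := by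
      filter_upwards [pb_eventually hF hh hx hx'] with z hz
      rw [hz]
    refine ContDiffAt.congr_of_eventuallyEq ?_ h1
    have hJ : ∀ p i, ContDiffAt ℝ ∞ (fun z => jm (loc F e e') z p i) (e x) := fun p i =>
      ((jm_holo (loc_contDiffAt hF hx hx') p i).restrict_scalars ℝ).of_le le_top
    have h2 : (fun z => pl (h e') (loc F e e') z i j) = fun z => ∑ q, (∑ p,
        jm (loc F e e') z p i * h e' (loc F e e' z) p q) * cj (jm (loc F e e') z q j) := by
      funext z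
      unfold pl
      simp only [Matrix.mul_apply, Matrix.transpose_apply, Matrix.map_apply]
    rw [h2]
    refine ContDiffAt.sum fun q _ => ContDiffAt.mul (ContDiffAt.sum fun p _ =>
      (hJ p i).mul (loc_smooth_h hF hh hx hx' p q)) ?_
    exact Complex.conjCLE.contDiff.contDiffAt.comp (e x) (hJ q j)
  pos e x hx := by
    have hx' : At (chartAt (Cm m) (F x)) (F x) := ⟨chart_mem_atlas _ _, mem_chart_source _ _⟩
    rw [pb_apply hF hh hx hx']
    unfold pl
    rw [loc_apply hx]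
    exact posSemidefR (hh.posDef _ _ hx').posSemidef _
  change e e₂ x hx hx2 := by
    have hx' : At (chartAt (Cm m) (F x)) (F x) := ⟨chart_mem_atlas _ _, mem_chart_source _ _⟩
    rw [pb_apply hF hh hx hx', pb_apply hF hh hx2 hx']
    unfold pl
    rw [jm_loc_left hF hx hx2 hx', loc_apply hx, loc_apply hx2, Matrix.transpose_mul,
      Matrix.map_mul]
    simp only [Matrix.mul_assoc]

/-- the quartic form `ξ ↦ R^h(dF ξ, …)` in the charts `e`, `e'` -/
def qF (F : X → Y) (h : Chart m Y → Cm m → Matrix (Fin m) (Fin m) ℂ) (e : Chart n X)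
    (e' : Chart m Y) (z : Cm n) (ξ : Cm n) : ℂ :=
  K.quart (curv (h e') (loc F e e' z)) (jm (loc F e e') z *ᵥ ξ)

lemma qF_right (hF : ContMDiff 𝓘(ℂ, Cm n) 𝓘(ℂ, Cm m) ω F) (hh : IsHermitian h) (hx : At e x)
    (hx' : At e' (F x)) (hx2 : At e₂' (F x)) (ξ : Cm n) :
    qF F h e e₂' (e x) ξ = qF F h e e' (e x) ξ := by
  unfold qF
  rw [loc_apply hx, loc_apply hx, T4.quart_change hh hx' hx2, Matrix.mulVec_mulVec,
    ← jm_loc_right hF hx hx' hx2]

lemma qF_left (hF : ContMDiff 𝓘(ℂ, Cm n) 𝓘(ℂ, Cm m) ω F) (hx : At e x) (hx2 : At e₂ x)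
    (hx' : At e' (F x)) (ξ : Cm n) :
    qF F h e e' (e x) ξ = qF F h e₂ e' (e₂ x) (jacM e e₂ x *ᵥ ξ) := by
  unfold qF
  rw [loc_apply hx, loc_apply hx2, Matrix.mulVec_mulVec, ← jm_loc_left hF hx hx2 hx']

lemma quad_pl (H : Cm m → Matrix (Fin m) (Fin m) ℂ) (G : Cm n → Cm m) (z : Cm n) (ξ : Cm n) :
    quad (pl H G z) ξ = quad (H (G z)) (jm G z *ᵥ ξ) := quadR _ _ _

/-- **the curvature bound of the pull-back** -/
theorem curvLe_pb (hF : ContMDiff 𝓘(ℂ, Cm n) 𝓘(ℂ, Cm m) ω F) (hh : IsHermitian h) (hx : At e x)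
    (hx' : At e' (F x)) {κ : ℝ}
    (hκ : ∀ ξ : Cm n, (qF F h e e' (e x) ξ).re ≤ -κ * (quad (pb F h e (e x)) ξ).re ^ 2) :
    CurvLe κ (pb F h e) (e x) := by
  have h1 : CurvLe κ (pl (h e') (loc F e e')) (e x) := by
    refine curvLe_pull (fun i j => ?_) ?_ (loc_contDiffAt hF hx hx') fun ξ => ?_
    · rw [loc_apply hx]
      exact (hh.smooth e' (F x) hx' i j).of_le (by exact WithTop.coe_le_coe.2 le_top)
    · rw [loc_apply hx]
      filter_upwards [hx'.nhds_target] with y hy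
      exact hh.posDef_target hx'.1 hy
    · have := hκ ξ
      rw [pb_apply hF hh hx hx', quad_pl] at this
      exact this
  obtain ⟨p, f, L, P, a1, a2, a3, a4⟩ := h1
  have hev := pb_eventually hF hh hx hx'
  refine ⟨p, f, L, P, ?_, ?_, ?_, ?_⟩
  · rw [hev.eq_of_nhds, a1]
  · intro k
    rw [C2.DM_congr hev, a2]
  · intro k l
    rw [← a3 k l]
    exact C2.DM_congr (C2.DMb_eventuallyEq hev)
  · intro ξ
    rw [hev.eq_of_nhds]
    exact a4 ξ

end Vale.Agent.P272.K.QN
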