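import Vale.Agent.P272.K.QN.H705.Herm

/-!
# Pull-back of a Hermitian metric by a holomorphic map `ℂⁿ → ℂᵐ`, local computation
-/

open scoped Manifold ContDiff Topology ComplexConjugate ComplexOrder
open TopologicalSpace (Opens)
open Matrix MeasureTheory
open Vale.Agent.P272.K.P1
open Vale.Agent.P272.K.C2 (DM DMb MD MC D2)

set_option linter.all false

noncomputable section

namespace Vale.Agent.P272.K.QN

variable {n m : ℕ}

/-! ### the chain rule -/

/-- Jacobian matrix `(∂F_p/∂z_i)` of a map `ℂⁿ → ℂᵐ` -/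
def jm (F : Cm n → Cm m) (z : Cm n) : Matrix (Fin m) (Fin n) ℂ :=
  Matrix.of fun p i => dz i (fun y => F y p) z

section chain
variable {f : Cm m → ℂ} {F : Cm n → Cm m} {z : Cm n} {i j : Fin n}

lemma diff_comp (h : DifferentiableAt ℂ F z) (p : Fin m) :
    DifferentiableAt ℂ (fun y => F y p) z :=
  (differentiableAt_pi.1 h) p

lemma jm_apply (h : DifferentiableAt ℂ F z) (p : Fin m) (i : Fin n) :
    jm F z p i = (fderiv ℂ F z (Pi.single i 1)) p := by
  unfold jm
  rw [Matrix.of_apply, dz_of_holo (diff_comp h p)]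
  rw [fderiv_apply h p]
  rfl

lemma jm_mulVec (h : DifferentiableAt ℂ F z) (v : Cm n) (p : Fin m) :
    fderiv ℂ F z v p = ∑ i, jm F z p i * v i := by
  have hv : v = ∑ i, (v i) • (Pi.single i (1 : ℂ) : Cm n) := by
    funext j
    simp only [Finset.sum_apply, Pi.smul_apply]
    rw [Finset.sum_eq_single j]
    · simp
    · intro b _ hb; simp [hb.symm]
    · simp
  conv_lhs => rw [hv]
  rw [map_sum, Finset.sum_apply]
  refine Finset.sum_congr rfl fun i _ => ?_
  rw [map_smul, Pi.smul_apply, jm_apply h, smul_eq_mul, mul_comm]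

lemma fderiv_comp_F (hf : DifferentiableAt ℝ f (F z)) (h : DifferentiableAt ℂ F z) (v : Cm n) :
    fderiv ℝ (fun y => f (F y)) z v = fderiv ℝ f (F z) (fderiv ℂ F z v) := by
  have h1 : DifferentiableAt ℝ F z := h.restrictScalars ℝ
  rw [show (fun y => f (F y)) = f ∘ F from rfl, fderiv_comp z hf h1]
  simp only [ContinuousLinearMap.comp_apply]
  rw [fderivR_of_holo h]

lemma fderiv_I (h : DifferentiableAt ℂ F z) (i : Fin n) (p : Fin m) :
    fderiv ℂ F z (Pi.single i Complex.I) p = Complex.I * jm F z p i := by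
  have hs : (Pi.single i Complex.I : Cm n) = Complex.I • Pi.single i 1 := by
    rw [← Pi.single_smul]; simp
  rw [hs, map_smul, Pi.smul_apply, jm_apply h, smul_eq_mul]

/-- chain rule -/
lemma dz_comp_F (hf : DifferentiableAt ℝ f (F z)) (h : DifferentiableAt ℂ F z) :
    dz i (fun y => f (F y)) z = ∑ p, dz p f (F z) * jm F z p i := by
  unfold dz
  rw [fderiv_comp_F hf h, fderiv_comp_F hf h, K.fderiv_eq, K.fderiv_eq]
  have h3 : ∀ p, fderiv ℂ F z (Pi.single i 1) p = jm F z p i := by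
    intro p; rw [jm_apply h]
  simp only [fderiv_I h, h3]
  rw [Finset.mul_sum, ← Finset.sum_sub_distrib, Finset.sum_div]
  refine Finset.sum_congr rfl fun p _ => ?_
  have h4 : cj (Complex.I * jm F z p i) = -Complex.I * cj (jm F z p i) := by simp [cj]
  rw [h4]
  have h5 : Complex.I * Complex.I = -1 := Complex.I_mul_I
  show _ = dz p f (F z) * jm F z p i
  linear_combination (-(dz p f (F z)) * jm F z p i / 2 + dzb p f (F z) * cj (jm F z p i) / 2) * h5

lemma dzb_comp_F (hf : DifferentiableAt ℝ f (F z)) (h : DifferentiableAt ℂ F z) :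
    dzb i (fun y => f (F y)) z = ∑ p, dzb p f (F z) * cj (jm F z p i) := by
  unfold dzb
  rw [fderiv_comp_F hf h, fderiv_comp_F hf h, K.fderiv_eq, K.fderiv_eq]
  have h3 : ∀ p, fderiv ℂ F z (Pi.single i 1) p = jm F z p i := by
    intro p; rw [jm_apply h]
  simp only [fderiv_I h, h3]
  rw [Finset.mul_sum, ← Finset.sum_add_distrib, Finset.sum_div]
  refine Finset.sum_congr rfl fun p _ => ?_
  have h4 : cj (Complex.I * jm F z p i) = -Complex.I * cj (jm F z p i) := by simp [cj]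
  rw [h4]
  have h5 : Complex.I * Complex.I = -1 := Complex.I_mul_I
  show _ = dzb p f (F z) * cj (jm F z p i)
  linear_combination (dz p f (F z) * jm F z p i / 2 - dzb p f (F z) * cj (jm F z p i) / 2) * h5

lemma jm_holo (h : ContDiffAt ℂ ω F z) (p : Fin m) (i : Fin n) :
    ContDiffAt ℂ ω (fun y => jm F y p i) z := by
  have h1 : ContDiffAt ℂ ω (fderiv ℂ F) z := h.fderiv_right (m := ω) (by exact le_top)
  have h2 : ContDiffAt ℂ ω (fun y => (fderiv ℂ F y (Pi.single i 1)) p) z := by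
    have h3 : ContDiffAt ℂ ω (fun y => fderiv ℂ F y (Pi.single i 1)) z :=
      h1.clm_apply contDiffAt_const
    exact (contDiffAt_pi.1 h3) p
  refine h2.congr_of_eventuallyEq ?_
  have h4 : ∀ᶠ y in 𝓝 z, ContDiffAt ℂ ω F y := h.eventually (by simp)
  filter_upwards [h4] with y hy
  exact jm_apply (hy.differentiableAt (by simp)) p i

lemma jm_comp {r : ℕ} {σ : Cm m → Cm r} (hσ : DifferentiableAt ℂ σ (F z))
    (h : DifferentiableAt ℂ F z) : jm (fun y => σ (F y)) z = jm σ (F z) * jm F z := by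
  ext p i
  have h1 : DifferentiableAt ℝ (fun y => σ y p) (F z) := (diff_comp hσ p).restrictScalars ℝ
  rw [Matrix.mul_apply]
  exact dz_comp_F (f := fun y => σ y p) h1 h

lemma jm_congr {F G : Cm n → Cm m} (h : F =ᶠ[𝓝 z] G) : jm F z = jm G z := by
  ext p i
  exact dz_congr (by filter_upwards [h] with y hy; rw [hy])

end chain

/-! ### matrices with holomorphic entries -/

/-- entrywise holomorphy -/
def HolR (A : Cm n → Matrix (Fin n) (Fin m) ℂ) (z : Cm n) : Prop :=
  ∀ p i, ContDiffAt ℂ ω (fun y => A y p i) z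

section hol
variable {A : Cm n → Matrix (Fin n) (Fin m) ℂ} {z : Cm n}

lemma HolR.eventually (h : HolR A z) : ∀ᶠ y in 𝓝 z, HolR A y := by
  have : ∀ i, ∀ᶠ y in 𝓝 z, ∀ j, ContDiffAt ℂ ω (fun y => A y i j) y := by
    intro i
    rw [Filter.eventually_all]
    exact fun j => (h i j).eventually (by simp)
  exact Filter.eventually_all.2 this

lemma HolR.mc (h : HolR A z) (r : WithTop ℕ∞) : MC r A z := fun i j => by
  have := (h i j).restrict_scalars ℝ
  exact this.of_le le_top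

lemma HolR.dmb (h : HolR A z) (j : Fin n) : DMb j A z = 0 := by
  ext a b
  exact dzb_of_holo ((h a b).differentiableAt (by simp))

variable {G : Cm n → Matrix (Fin m) (Fin m) ℂ}

lemma DM_lawR (hA : HolR A z) (hG : MC 1 G z) (i : Fin n) :
    DM i (fun y => A y * G y * (A y)ᴴ) z =
      (DM i A z * G z + A z * DM i G z) * (A z)ᴴ := by
  have h1 : MD A z := (hA.mc 1).md one_ne_zero
  have h2 : MD G z := hG.md one_ne_zero
  have h3 : MD (fun y => (A y)ᴴ) z := ((hA.mc 1).conjTranspose).md one_ne_zero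
  have h4 : MD (fun y => A y * G y) z := ((hA.mc 1).mul hG).md one_ne_zero
  rw [C2.DM_mul h4 h3, C2.DM_mul h1 h2, C2.DM_conjTranspose h1, hA.dmb]
  simp

lemma DMb_lawR (hA : HolR A z) (hG : MC 1 G z) (j : Fin n) :
    DMb j (fun y => A y * G y * (A y)ᴴ) z =
      A z * (DMb j G z * (A z)ᴴ + G z * (DM j A z)ᴴ) := by
  have h1 : MD A z := (hA.mc 1).md one_ne_zero
  have h2 : MD G z := hG.md one_ne_zero
  have h3 : MD (fun y => (A y)ᴴ) z := ((hA.mc 1).conjTranspose).md one_ne_zero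
  have h4 : MD (fun y => A y * G y) z := ((hA.mc 1).mul hG).md one_ne_zero
  rw [C2.DMb_mul h4 h3, C2.DMb_mul h1 h2, C2.DMb_conjTranspose h1, hA.dmb]
  simp [Matrix.mul_add, Matrix.mul_assoc]

lemma D2_lawR (hA : HolR A z) (hG : MC 2 G z) (i j : Fin n) :
    DM i (DMb j (fun y => A y * G y * (A y)ᴴ)) z =
      DM i A z * (DMb j G z * (A z)ᴴ + G z * (DM j A z)ᴴ) +
      A z * (DM i (DMb j G) z * (A z)ᴴ + DM i G z * (DM j A z)ᴴ) := by
  have hG1 : MC 1 G z := hG.mono (by norm_num)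
  have e1 : DMb j (fun y => A y * G y * (A y)ᴴ) =ᶠ[𝓝 z] fun y =>
      A y * (DMb j G y * (A y)ᴴ + G y * (DM j A y)ᴴ) := by
    have hG' : ∀ᶠ y in 𝓝 z, MC 1 G y := C2.MC.eventually (q := 1) hG1
    filter_upwards [hA.eventually, hG'] with y hy hy2
    exact DMb_lawR hy hy2 j
  have hA1 : MD A z := (hA.mc 1).md one_ne_zero
  have hAH : MC 1 (fun y => (A y)ᴴ) z := (hA.mc 1).conjTranspose
  have hDG : MC 1 (DMb j G) z := hG.DMb (by norm_num)
  have hDA : MC 1 (DM j A) z := (hA.mc 2).DM (by norm_num)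
  have hDAH : MC 1 (fun y => (DM j A y)ᴴ) z := hDA.conjTranspose
  have e2 : DMb i (DM j A) z = 0 := by
    have h5 : DM j (DMb i A) z = DMb i (DM j A) z := C2.DM_DMb_comm (hA.mc 2)
    rw [← h5]
    have h6 : DMb i A =ᶠ[𝓝 z] fun _ => 0 := by
      filter_upwards [hA.eventually] with y hy using hy.dmb i
    rw [C2.DM_congr h6, C2.DM_const]
  rw [C2.DM_congr e1, C2.DM_mul hA1 (((hDG.mul hAH).add (hG1.mul hDAH)).md one_ne_zero),
      C2.DM_add ((hDG.mul hAH).md one_ne_zero) ((hG1.mul hDAH).md one_ne_zero),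
      C2.DM_mul (hDG.md one_ne_zero) (hAH.md one_ne_zero),
      C2.DM_mul (hG1.md one_ne_zero) (hDAH.md one_ne_zero),
      C2.DM_conjTranspose hA1, C2.DM_conjTranspose (hDA.md one_ne_zero), hA.dmb, e2]
  simp

end hol

/-! ### composition with a holomorphic map -/

section comp
variable {H : Cm m → Matrix (Fin m) (Fin m) ℂ} {F : Cm n → Cm m} {z : Cm n}

lemma MC_comp_F {r : WithTop ℕ∞} (hH : MC r H (F z)) (h : ContDiffAt ℂ ω F z) :
    MC r (fun y => H (F y)) z := fun i j =>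
  (hH i j).comp z ((h.restrict_scalars ℝ).of_le le_top)

lemma DM_comp_F (hH : MC 1 H (F z)) (h : ContDiffAt ℂ ω F z) (i : Fin n) :
    DM i (fun y => H (F y)) z = ∑ p, jm F z p i • DM p H (F z) := by
  ext a b
  rw [Matrix.sum_apply]
  simp only [Matrix.smul_apply, smul_eq_mul]
  rw [C2.DM_apply, dz_comp_F (f := fun y => H y a b) ((hH a b).differentiableAt one_ne_zero)
    (h.differentiableAt (by simp))]
  exact Finset.sum_congr rfl fun p _ => mul_comm _ _

lemma DMb_comp_F (hH : MC 1 H (F z)) (h : ContDiffAt ℂ ω F z) (i : Fin n) :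
    DMb i (fun y => H (F y)) z = ∑ p, cj (jm F z p i) • DMb p H (F z) := by
  ext a b
  rw [Matrix.sum_apply]
  simp only [Matrix.smul_apply, smul_eq_mul]
  rw [C2.DMb_apply, dzb_comp_F (f := fun y => H y a b) ((hH a b).differentiableAt one_ne_zero)
    (h.differentiableAt (by simp))]
  exact Finset.sum_congr rfl fun p _ => mul_comm _ _

lemma D2_comp_F (hH : MC 2 H (F z)) (h : ContDiffAt ℂ ω F z) (i j : Fin n) :
    DM i (DMb j (fun y => H (F y))) z =
      ∑ p, ∑ q, (jm F z p i * cj (jm F z q j)) • DM p (DMb q H) (F z) := by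
  have hH1 : MC 1 H (F z) := hH.mono (by norm_num)
  have e1 : DMb j (fun y => H (F y)) =ᶠ[𝓝 z] fun y => ∑ q, cj (jm F y q j) • DMb q H (F y) := by
    have hH' : ∀ᶠ y in 𝓝 z, MC 1 H (F y) := h.continuousAt.eventually
      (C2.MC.eventually (q := 1) hH1)
    filter_upwards [h.eventually (by simp), hH'] with y hy hy2
    exact DMb_comp_F hy2 hy j
  rw [C2.DM_congr e1]
  ext a b
  rw [C2.DM_apply]
  simp only [Matrix.sum_apply, Matrix.smul_apply, smul_eq_mul]
  have hd2 : ∀ q, DifferentiableAt ℝ (fun y => jm F y q j) z := fun q =>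
    ((jm_holo h q j).differentiableAt (by simp)).restrictScalars ℝ
  have hd3 : ∀ q, DifferentiableAt ℝ (fun y => cj (jm F y q j)) z := fun q =>
    Complex.conjCLE.differentiableAt.comp z (hd2 q)
  have hd1 : ∀ q, DifferentiableAt ℝ (fun y => DMb q H y a b) (F z) := fun q =>
    ((hH.DMb (k := q) (m' := 1) (by norm_num)) a b).differentiableAt one_ne_zero
  have hd4 : ∀ q, DifferentiableAt ℝ (fun y => DMb q H (F y) a b) z := fun q =>
    (hd1 q).comp z ((h.differentiableAt (by simp)).restrictScalars ℝ)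
  rw [dz_sum (F := fun q y => cj (jm F y q j) * DMb q H (F y) a b) Finset.univ
    fun q _ => (hd3 q).mul (hd4 q)]
  rw [Finset.sum_comm]
  refine Finset.sum_congr rfl fun q _ => ?_
  rw [dz_mul (hd3 q) (hd4 q), dz_cj (hd2 q),
    dzb_of_holo ((jm_holo h q j).differentiableAt (by simp)),
    dz_comp_F (f := fun y => DMb q H y a b) (hd1 q) (h.differentiableAt (by simp))]
  simp only [cj, map_zero, zero_mul, zero_add]
  rw [Finset.mul_sum]
  refine Finset.sum_congr rfl fun p _ => ?_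
  rw [C2.DM_apply]; ring

/-- minus the curvature matrices -/
def Pm (H : Cm m → Matrix (Fin m) (Fin m) ℂ) (z : Cm m) (i j : Fin m) : Matrix (Fin m) (Fin m) ℂ :=
  DM i (DMb j H) z - DM i H z * (H z)⁻¹ * DMb j H z

/-- `D2 (H ∘ F) - D(H ∘ F) H⁻¹ D̄(H ∘ F)` in terms of the curvature of `H` -/
lemma Pm_comp_F (hH : MC 2 H (F z)) (h : ContDiffAt ℂ ω F z) (i j : Fin n) :
    DM i (DMb j (fun y => H (F y))) z -
        DM i (fun y => H (F y)) z * (H (F z))⁻¹ * DMb j (fun y => H (F y)) z =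
      ∑ p, ∑ q, (jm F z p i * cj (jm F z q j)) • Pm H (F z) p q := by
  have hH1 : MC 1 H (F z) := hH.mono (by norm_num)
  rw [D2_comp_F hH h, DM_comp_F hH1 h, DMb_comp_F hH1 h]
  unfold Pm
  simp only [smul_sub, Finset.sum_sub_distrib]
  congr 1
  rw [Finset.sum_mul, Finset.sum_mul]
  refine Finset.sum_congr rfl fun p _ => ?_
  rw [Finset.mul_sum]
  refine Finset.sum_congr rfl fun q _ => ?_
  simp only [Matrix.smul_mul, Matrix.mul_smul, smul_smul]
  rw [mul_comm]

/-- the local pull-back `Jᵀ (H ∘ F) J̄` -/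
def pl (H : Cm m → Matrix (Fin m) (Fin m) ℂ) (F : Cm n → Cm m) (y : Cm n) :
    Matrix (Fin n) (Fin n) ℂ :=
  (jm F y)ᵀ * H (F y) * (jm F y).map (starRingEnd ℂ)

lemma pl_eq (H : Cm m → Matrix (Fin m) (Fin m) ℂ) (F : Cm n → Cm m) :
    pl H F = fun y => (jm F y)ᵀ * H (F y) * ((jm F y)ᵀ)ᴴ := by
  funext y; rfl

lemma hol_jmT (h : ContDiffAt ℂ ω F z) : HolR (fun y => (jm F y)ᵀ) z := fun p i =>
  jm_holo h i p

lemma quadR (J : Matrix (Fin m) (Fin n) ℂ) (M : Matrix (Fin m) (Fin m) ℂ) (w : Cm n) :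
    herm (Jᵀ * M * J.map (starRingEnd ℂ)) w = herm M (J *ᵥ w) := by
  have e : ∀ {k : ℕ} (M : Matrix (Fin k) (Fin k) ℂ) (w : Cm k),
      herm M w = (w ᵥ* M) ⬝ᵥ (fun j => cj (w j)) := by
    intro k M w
    unfold herm Matrix.vecMul dotProduct
    rw [Finset.sum_comm]
    refine Finset.sum_congr rfl fun j _ => ?_
    rw [Finset.sum_mul]
    exact Finset.sum_congr rfl fun i _ => by ring
  have e2 : (fun j => cj ((J *ᵥ w) j)) = (J.map (starRingEnd ℂ)) *ᵥ (fun j => cj (w j)) := by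
    funext j
    simp only [Matrix.mulVec, dotProduct, cj, map_sum, map_mul, Matrix.map_apply]
  rw [e, e, ← Matrix.vecMul_vecMul, ← Matrix.vecMul_vecMul, Matrix.vecMul_transpose, e2,
    Matrix.dotProduct_mulVec]

lemma quartR (J : Matrix (Fin m) (Fin n) ℂ) (P : Fin m → Fin m → Matrix (Fin m) (Fin m) ℂ)
    (w : Cm n) :
    P1.quart (fun i j => Jᵀ * (∑ p, ∑ q, (J p i * cj (J q j)) • P p q) *
      J.map (starRingEnd ℂ)) w w w w = P1.quart P (J *ᵥ w) (J *ᵥ w) (J *ᵥ w) (J *ᵥ w) := by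
  have e : ∀ {k : ℕ} (P : Fin k → Fin k → Matrix (Fin k) (Fin k) ℂ) (w : Cm k),
      P1.quart P w w w w = ∑ i, ∑ j, (w i * cj (w j)) * herm (P i j) w := by
    intro k P w
    unfold P1.quart herm
    refine Finset.sum_congr rfl fun i _ => Finset.sum_congr rfl fun j _ => ?_
    rw [Finset.mul_sum]
    refine Finset.sum_congr rfl fun k _ => ?_
    rw [Finset.mul_sum]
    refine Finset.sum_congr rfl fun l _ => ?_
    ring
  rw [e, e]
  have e2 : ∀ i j, herm (Jᵀ * (∑ p, ∑ q, (J p i * cj (J q j)) • P p q) *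
      J.map (starRingEnd ℂ)) w = ∑ p, ∑ q, (J p i * cj (J q j)) * herm (P p q) (J *ᵥ w) := by
    intro i j
    rw [quadR]
    unfold herm
    simp only [Matrix.sum_apply, Matrix.smul_apply, smul_eq_mul, Finset.sum_mul, Finset.mul_sum]
    calc _ = ∑ a, ∑ p, ∑ b, ∑ q, J p i * cj (J q j) * P p q a b *
          ((J *ᵥ w) a * (starRingEnd ℂ) ((J *ᵥ w) b)) := by
            refine Finset.sum_congr rfl fun a _ => Finset.sum_comm
      _ = ∑ p, ∑ a, ∑ b, ∑ q, J p i * cj (J q j) * P p q a b *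
          ((J *ᵥ w) a * (starRingEnd ℂ) ((J *ᵥ w) b)) := Finset.sum_comm
      _ = ∑ p, ∑ a, ∑ q, ∑ b, J p i * cj (J q j) * P p q a b *
          ((J *ᵥ w) a * (starRingEnd ℂ) ((J *ᵥ w) b)) := by
            refine Finset.sum_congr rfl fun p _ => Finset.sum_congr rfl fun a _ => Finset.sum_comm
      _ = ∑ p, ∑ q, ∑ a, ∑ b, J p i * cj (J q j) * P p q a b *
          ((J *ᵥ w) a * (starRingEnd ℂ) ((J *ᵥ w) b)) := by
            refine Finset.sum_congr rfl fun p _ => Finset.sum_comm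
      _ = _ := by
            refine Finset.sum_congr rfl fun p _ => Finset.sum_congr rfl fun q _ =>
              Finset.sum_congr rfl fun a _ => Finset.sum_congr rfl fun b _ => ?_
            ring
  simp only [e2]
  have h1 : ∀ p q, ((J *ᵥ w) p * cj ((J *ᵥ w) q)) =
      ∑ i, ∑ j, (w i * cj (w j)) * (J p i * cj (J q j)) := by
    intro p q
    simp only [Matrix.mulVec, dotProduct, cj, map_sum, map_mul]
    rw [Finset.sum_mul_sum]
    refine Finset.sum_congr rfl fun i _ => Finset.sum_congr rfl fun j _ => ?_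
    ring
  simp only [h1, Finset.sum_mul, Finset.mul_sum]
  calc _ = ∑ i, ∑ p, ∑ j, ∑ q, w i * cj (w j) * (J p i * cj (J q j) * herm (P p q) (J *ᵥ w)) := by
        refine Finset.sum_congr rfl fun i _ => Finset.sum_comm
    _ = ∑ p, ∑ i, ∑ j, ∑ q, w i * cj (w j) * (J p i * cj (J q j) * herm (P p q) (J *ᵥ w)) :=
        Finset.sum_comm
    _ = ∑ p, ∑ i, ∑ q, ∑ j, w i * cj (w j) * (J p i * cj (J q j) * herm (P p q) (J *ᵥ w)) := by
        refine Finset.sum_congr rfl fun p _ => Finset.sum_congr rfl fun i _ => Finset.sum_comm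
    _ = ∑ p, ∑ q, ∑ i, ∑ j, w i * cj (w j) * (J p i * cj (J q j) * herm (P p q) (J *ᵥ w)) := by
        refine Finset.sum_congr rfl fun p _ => Finset.sum_comm
    _ = _ := by
        refine Finset.sum_congr rfl fun p _ => Finset.sum_congr rfl fun q _ =>
          Finset.sum_congr rfl fun i _ => Finset.sum_congr rfl fun j _ => ?_
        ring

/-- **the curvature bound of a pulled back metric** -/
theorem curvLe_pull (hH : MC 2 H (F z)) (hpos : ∀ᶠ y in 𝓝 (F z), (H y).PosDef)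
    (h : ContDiffAt ℂ ω F z) {κ : ℝ}
    (hκ : ∀ ξ : Cm n, (K.quart (curv H (F z)) (jm F z *ᵥ ξ)).re ≤
      -κ * (quad (H (F z)) (jm F z *ᵥ ξ)).re ^ 2) :
    CurvLe κ (pl H F) z := by
  have hH1 : MC 1 H (F z) := hH.mono (by norm_num)
  have hpz : (H (F z)).PosDef := hpos.self_of_nhds
  obtain ⟨B, hB⟩ := C2.exists_factor hpz.posSemidef
  have hu : IsUnit B.det := by
    refine isUnit_iff_ne_zero.2 fun h0 => ?_
    have := hpz.det_pos
    rw [hB, Matrix.det_mul, h0, mul_zero] at this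
    exact lt_irrefl _ this
  have hdz : (H (F z)).det ≠ 0 := hpz.det_pos.ne'
  have h1 : B⁻¹ * B = 1 := Matrix.nonsing_inv_mul _ hu
  have hinv : (H (F z))⁻¹ = B⁻¹ * (B⁻¹)ᴴ := by
    rw [hB, Matrix.mul_inv_rev, Matrix.conjTranspose_nonsing_inv]
  set A : Cm n → Matrix (Fin n) (Fin m) ℂ := fun y => (jm F y)ᵀ with hA
  set G : Cm n → Matrix (Fin m) (Fin m) ℂ := fun y => H (F y) with hG
  have hAh : HolR A z := hol_jmT h
  have hG2 : MC 2 G z := MC_comp_F hH h
  have hG1 : MC 1 G z := MC_comp_F hH1 h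
  have hGH : ∀ l, DMb l G z = (DM l G z)ᴴ := fun l => by
    refine C2.DMb_of_isHermitian (hG1.md one_ne_zero) ?_
    have := h.continuousAt.eventually hpos
    filter_upwards [this] with y hy using hy.isHermitian
  have hpl : pl H F = fun y => A y * G y * (A y)ᴴ := pl_eq H F
  set L : Fin n → Matrix (Fin n) (Fin m) ℂ := fun k => (DM k A z * G z + A z * DM k G z) * B⁻¹
    with hL
  have c1 : G z * (G z)⁻¹ = 1 := Matrix.mul_nonsing_inv _ (isUnit_iff_ne_zero.2 hdz)
  have c2 : (G z)⁻¹ * G z = 1 := Matrix.nonsing_inv_mul _ (isUnit_iff_ne_zero.2 hdz)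
  have hGz : (G z)ᴴ = G z := hpz.isHermitian.eq
  refine ⟨m, A z * Bᴴ, L, fun k l => A z * (DM k (DMb l G) z - DM k G z * (G z)⁻¹ * DMb l G z) *
    (A z)ᴴ, ?_, ?_, ?_, ?_⟩
  · rw [hpl]
    show A z * H (F z) * (A z)ᴴ = _
    rw [hB, Matrix.conjTranspose_mul, Matrix.conjTranspose_conjTranspose]
    simp only [Matrix.mul_assoc]
  · intro k
    rw [hpl, DM_lawR hAh hG1, Matrix.conjTranspose_mul, Matrix.conjTranspose_conjTranspose]
    show _ = (DM k A z * G z + A z * DM k G z) * B⁻¹ * (B * (A z)ᴴ)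
    rw [Matrix.mul_assoc _ B⁻¹, ← Matrix.mul_assoc B⁻¹ B, h1, Matrix.one_mul]
  · intro k l
    have e0 : D2 k l (pl H F) z = DM k (DMb l (fun y => A y * G y * (A y)ᴴ)) z := by
      rw [hpl]
    have e1 : L k * (L l)ᴴ = (DM k A z * G z + A z * DM k G z) * (G z)⁻¹ *
        (G z * (DM l A z)ᴴ + DMb l G z * (A z)ᴴ) := by
      rw [hL]
      simp only []
      rw [Matrix.conjTranspose_mul, Matrix.conjTranspose_add, Matrix.conjTranspose_mul,
        Matrix.conjTranspose_mul, hGz, ← hGH]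
      show _ = (DM k A z * G z + A z * DM k G z) * (H (F z))⁻¹ *
        (G z * (DM l A z)ᴴ + DMb l G z * (A z)ᴴ)
      rw [hinv]
      simp only [Matrix.mul_assoc]
    rw [e0, D2_lawR hAh hG2, e1]
    have k1 : DM k A z * G z * (G z)⁻¹ = DM k A z := by rw [Matrix.mul_assoc, c1, Matrix.mul_one]
    have k2 : A z * DM k G z * (G z)⁻¹ * (G z * (DM l A z)ᴴ) = A z * DM k G z * (DM l A z)ᴴ := by
      rw [Matrix.mul_assoc (A z * DM k G z), ← Matrix.mul_assoc (G z)⁻¹, c2, Matrix.one_mul]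
    rw [Matrix.add_mul, k1, Matrix.add_mul, Matrix.mul_add (A z * DM k G z * (G z)⁻¹), k2]
    simp only [Matrix.mul_add, Matrix.mul_sub, Matrix.sub_mul, Matrix.mul_assoc]
    abel
  · intro ξ
    have e1 : (fun k l => A z * (DM k (DMb l G) z - DM k G z * (G z)⁻¹ * DMb l G z) * (A z)ᴴ) =
        fun i j => (jm F z)ᵀ * (∑ p, ∑ q, (jm F z p i * cj (jm F z q j)) • Pm H (F z) p q) *
          (jm F z).map (starRingEnd ℂ) := by
      funext k l
      have := Pm_comp_F hH h k l
      show A z * (DM k (DMb l G) z - DM k G z * (H (F z))⁻¹ * DMb l G z) * (A z)ᴴ = _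
      rw [this]
      rfl
    have e2 : herm (pl H F z) ξ = quad (H (F z)) (jm F z *ᵥ ξ) := quadR _ _ _
    have e3 : P1.quart (Pm H (F z)) (jm F z *ᵥ ξ) (jm F z *ᵥ ξ) (jm F z *ᵥ ξ) (jm F z *ᵥ ξ) =
        -K.quart (curv H (F z)) (jm F z *ᵥ ξ) := by
      unfold P1.quart K.quart
      simp only [Met.curv_eq, ← Finset.sum_neg_distrib]
      refine Finset.sum_congr rfl fun i _ => Finset.sum_congr rfl fun j _ =>
        Finset.sum_congr rfl fun k _ => Finset.sum_congr rfl fun l _ => ?_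
      unfold Pm C2.D2
      simp only [Matrix.add_apply, Matrix.sub_apply, Matrix.neg_apply]
      ring
    rw [e1, quartR, e2, e3, Complex.neg_re]
    linarith [hκ ξ]

end comp

end Vale.Agent.P272.K.QN
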